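import Crest.Agent.N49.Un.Defs
import Crest.Agent.N49.Ho.Adm

/-!
# Row 49 (helper1): `RGD` (more clones)
-/

set_option autoImplicit false
set_option linter.unusedSectionVars false

open Matrix MvPolynomial Finset Function

noncomputable section

namespace Crest.Agent.N49.Ho

open Po Tw Tw.Db

theorem det_fac {C C0 C1 ι : Type} [Fintype C] [DecidableEq C] [Fintype C0] [DecidableEq C0]
    [Fintype C1] [DecidableEq C1] [Fintype ι] (e : C0 ⊕ ι × C1 ≃ C) {M : Matrix C C ℝ}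
    {M0 : Matrix C0 C0 ℝ} {M1 : Matrix C1 C1 ℝ} (h0 : ∀ c c', M (e (.inl c)) (e (.inl c')) = M0 c c')
    (h01 : ∀ c q, M (e (.inl c)) (e (.inr q)) = 0)
    (h1 : ∀ a c c', M (e (.inr (a, c))) (e (.inr (a, c'))) = M1 c c')
    (h11 : ∀ q q' : ι × C1, q.1 ≠ q'.1 → M (e (.inr q)) (e (.inr q')) = 0) :
    M.det = M0.det * M1.det ^ Fintype.card ι := by
  classical
  have : M.submatrix e e = fromBlocks M0 0 (M.submatrix e e).toBlocks₂₁
      ((blockDiagonal fun _ : ι => M1).submatrix (Equiv.prodComm ι C1) (Equiv.prodComm ι C1)) := by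
    ext (c | ⟨a, c⟩) (c' | ⟨a', c'⟩)
    exacts [h0 _ _, h01 _ _, rfl, by
      by_cases k : a = a'
      · subst k; simpa [blockDiagonal_apply] using h1 a c c'
      · simpa [blockDiagonal_apply, k] using h11 (a, c) (a', c') k]
  rw [← det_submatrix_equiv_self e, this, det_fromBlocks_zero₁₂, det_submatrix_equiv_self,
    det_blockDiagonal, prod_const, card_univ]

variable {σ τ τ₀ τ₁ ι : Type} [DecidableEq σ] {T : TS σ} {S : Sh σ τ} {S₀ : Sh σ τ₀} {S₁ : Sh σ τ₁}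
  {p : S₁.W → Prop} [DecidablePred p]

/-- `S₀` is the quotient of `S₁` on the words `p` -/
structure ShQ (S₀ : Sh σ τ₀) (S₁ : Sh σ τ₁) (p : S₁.W → Prop) (f : S₀.W → S₁.W) : Prop where
  inj : Injective f
  mem : ∀ w, p (f w)
  sur : ∀ x, p x → ∃ w, f w = x
  cd : ∀ w, S₁.cd (f w) = S₀.cd w
  r : ∀ w m, S₁.r (f w) (m.mapDomain f) = S₀.r w m
  idl : S₁.Idl p
  hK : ∀ w w', S₁.K (f w) (f w') = S₀.K w w'

namespace ShQ
variable {f : S₀.W → S₁.W}

variable (T) in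
/-- the coordinates -/
def eqv (h : ShQ S₀ S₁ p f) : T.Cw S₀ ≃ {c : T.Cw S₁ // p c.1.2} :=
  Equiv.ofBijective (fun c => ⟨fc T h.cd c, h.mem _⟩)
    ⟨fun _ _ e => fc_inj h.cd h.inj (congrArg Subtype.val e), fun x => by
      obtain ⟨w, e⟩ := h.sur _ x.2
      exact ⟨⟨(x.1.1.1, w), (h.cd w).symm.trans (e ▸ x.1.2)⟩,
        Subtype.ext (Subtype.ext (Prod.ext rfl e))⟩⟩

theorem kw_eq (h : ShQ S₀ S₁ p f) (B : Matrix T.C T.C ℝ) : T.kw S₀ B S₀.K =
    (pp (fun c : T.Cw S₁ => p c.1.2) (T.kw S₁ B S₁.K)).submatrix (h.eqv T) (h.eqv T) :=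
  Matrix.ext fun c c' => congrArg (B c.1.1 c'.1.1 * ·) (h.hK _ _).symm

theorem S_cut (h : ShQ S₀ S₁ p f) (Ψ : T.Twd S₁) (G : (T.Cw S₀ → ℤ) → ℝ) :
    (((T.tw S₁ Ψ).cut (fun c : T.Cw S₁ => p c.1.2) 0).S fun r =>
      G fun c => glue (fun c : T.Cw S₁ => p c.1.2) r 0 (fc T h.cd c)) =
      (T.tw S₀ (T.tp S₁ S₀ (pj f) Ψ)).S G := by
  refine ((TS.ren (h.eqv T)).tsum_eq _).symm.trans (tsum_congr fun y : T.Cw S₀ → ℤ => ?_)
  have k : ∀ c, glue (fun c : T.Cw S₁ => p c.1.2) (TS.ren (h.eqv T) y) 0 (fc T h.cd c) = y c :=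
    fun c => (glue_val _ _ (h.eqv T c)).trans (congrArg y ((h.eqv T).symm_apply_apply c))
  refine congrArg₂ (· * ·) ?_ (congrArg G (funext k))
  change gs (pp (fun c : T.Cw S₁ => p c.1.2) (T.kw S₁ T.K S₁.K))⁻¹ _ = gs (T.kw S₀ T.K S₀.K)⁻¹ _
  rw [gs, gs, h.kw_eq, inv_submatrix_equiv, ← TS.qf_ren (h.eqv T)]
  congr 4
  funext c
  refine (TS.u_cut ..).trans ((u_fc h.cd h.inj Ψ _ c (h.r _) fun m n x hx =>
    h.sur _ (h.idl _ m (h.mem _) n x hx)).trans (congrArg (ut _ · c) (funext fun c => ?_)))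
  exact (congrFun (zc_glue (TS.ren (h.eqv T) y) 0).symm _).trans (congrArg Int.cast (k c))

end ShQ

theorem ShCl.det_kw [Fintype ι] {em : ι → S₁.W → S.W} (h : ShCl S S₁ p em) (b : ι)
    {f : S₀.W → S₁.W} (h0 : ShQ S₀ S₁ p f) (B : Matrix T.C T.C ℝ) :
    (T.kw S B S.K).det = (T.kw S₀ B S₀.K).det *
      (pp (fun c : T.Cw S₁ => ¬ p c.1.2) (T.kw S₁ B S₁.K)).det ^ Fintype.card ι := by
  rw [h0.kw_eq, det_submatrix_equiv_self]
  refine det_fac ((h.cln T.lev 0).eqv b) (fun c c' => ?_) (fun c q => ?_) (fun a c c' => ?_)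
    fun q q' n => ?_
  · exact congrArg (B _ _ * ·) (h.hK b _ _)
  · refine (congrArg (B _ _ * ·) ?_).trans (mul_zero _)
    change S.K (em b c.1.1.2) (em q.1 q.2.1.1.2) = 0
    rw [h.com b q.1 _ c.2, h.hK, h.sep _ _ c.2 q.2.2]
  · exact congrArg (B _ _ * ·) (h.hK a _ _)
  · exact (congrArg (B _ _ * ·) (h.hK0 _ _ _ _ n q.2.2 q'.2.2)).trans (mul_zero _)

/-- `Zc` is multiplicative over the clones -/
theorem ShCl.Zc [Fintype ι] {em : ι → S₁.W → S.W} (h : ShCl S S₁ p em) (b : ι)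
    {f : S₀.W → S₁.W} (h0 : ShQ S₀ S₁ p f) {B : Matrix T.C T.C ℝ} (hB : B.PosDef)
    (o : S₀.K.PosDef) (o1 : S₁.K.PosDef) : dt (T.kw S B S.K)⁻¹ = dt (T.kw S₀ B S₀.K)⁻¹ *
      dt (pp (fun c : T.Cw S₁ => ¬ p c.1.2) (T.kw S₁ B S₁.K))⁻¹ ^ Fintype.card ι := by
  simp only [dt_inv]
  simp only [dt, inv_inv]
  rw [h.det_kw b h0, Real.sqrt_mul (TS.kw_posDef hB o).det_pos.le,
    ← card_univ, ← prod_const,
    Real.sqrt_prod _ fun _ _ => (pd_pp (TS.kw_posDef hB o1)).det_pos.le, prod_const]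

theorem num {x z η Z Z' Z0 c S S' : ℝ} {q q' p : ℕ} (h0 : 0 < η) (h1 : η ≤ 1 / 4) (hx : 0 ≤ x)
    (hz : 0 < z) (hc : 0 < c) (hq : 1 ≤ q) (hq' : 1 ≤ q') (hp : 1 ≤ p) (hZ : 0 < Z) (hZ' : 0 < Z')
    (m : |Z - c * z ^ q| ≤ η * (c * z ^ q)) (m' : |Z' - c * z ^ q'| ≤ η * (c * z ^ q'))
    (m0 : |Z0 - c| ≤ η * c) (H : x ^ (q * p) ≤ S / Z)
    (R : ∀ L, 0 ≤ L → L ^ q * Z0 ≤ S → L ^ q' * Z0 ≤ S') :
    (x * (1 - 2 * η) ^ 2) ^ (q' * p) ≤ S' / Z' := by
  have e : 0 ≤ 1 - 2 * η := by linarith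
  have e1 : 1 - 2 * η ≤ 1 := by linarith
  rw [abs_le] at m m' m0
  have := R (x ^ p * z * (1 - 2 * η)) (by positivity) (by
    rw [le_div_iff₀ hZ] at H
    refine le_trans ?_ H
    rw [mul_pow, mul_pow, ← pow_mul, mul_comm p, mul_assoc, mul_assoc]
    refine mul_le_mul_of_nonneg_left ?_ (by positivity)
    have a : (1 - 2 * η) ^ q * Z0 ≤ (1 - 2 * η) * ((1 + η) * c) :=
      mul_le_mul (pow_le_of_le_one e e1 (by omega)) (by linarith) (by nlinarith) e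
    have b : 0 < z ^ q := by positivity
    have : 0 ≤ η * η * (c * z ^ q) := by positivity
    nlinarith)
  rw [le_div_iff₀ hZ']
  refine le_trans ?_ this
  rw [mul_pow, mul_pow, mul_pow, ← pow_mul, ← pow_mul, mul_comm p, mul_assoc, mul_assoc, mul_assoc]
  refine mul_le_mul_of_nonneg_left ?_ (by positivity)
  have a : (1 - 2 * η) ^ (2 * (q' * p)) ≤ (1 - 2 * η) ^ q' * (1 - 2 * η) := by
    rw [← pow_succ]
    exact pow_le_pow_of_le_one e e1 (by nlinarith)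
  have b : 0 < z ^ q' := by positivity
  have d : (1 - 2 * η) * Z' ≤ z ^ q' * Z0 := by
    have : 0 ≤ η * η * (c * z ^ q') := by positivity
    nlinarith
  have g : 0 ≤ (1 - 2 * η) ^ q' := by positivity
  nlinarith [mul_le_mul_of_nonneg_right a hZ'.le, mul_le_mul_of_nonneg_left d g]

theorem wt_sh (y : T.Cw S → ℤ) : (T.sh S).wt y = (T.tw S (T.tw0 S)).wt y :=
  congrArg (gs _) (funext fun _ => congrArg (MvPolynomial.eval (zc y))
    (congrArg (S.cf (MvPolynomial (T.Cw S) ℝ) _) (TS.eval₂_tw0 _ _).symm))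

theorem E_sh (g : (T.Cw S → ℤ) → ℝ) :
    (T.sh S).E g = (T.tw S (T.tw0 S)).S g / (T.tw S (T.tw0 S)).Z :=
  congrArg₂ (· / ·) (tsum_congr fun y => congrArg (· * g y) (wt_sh y)) (tsum_congr wt_sh)

/-- regridding in normalised form -/
theorem ShCl.rgd {ι' τ' : Type} [Fintype ι] [Fintype ι'] {S' : Sh σ τ'} {em : ι → S₁.W → S.W}
    {em' : ι' → S₁.W → S'.W} (h : ShCl S S₁ p em) (h' : ShCl S' S₁ p em') {f : S₀.W → S₁.W}
    (z : ShQ S₀ S₁ p f) (ze : ∀ w, S₁.ε (f w) = S₀.ε w) {st : T.C → ℕ} {M : ℕ} (hs : T.Stg st M)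
    (o : S.Ok) (o' : S'.Ok) (o₀ : S₀.Ok) (o₁ : S₁.Ok) {η x : ℝ} (h0 : 0 < η) (h1 : η ≤ 1 / 4)
    (m : (T.lw S st (T.tw0 S)).Mas η) (m' : (T.lw S' st (T.tw0 S')).Mas η)
    (m0 : (T.lw S₀ st (T.tw0 S₀)).Mas η) (b : ι) (b' : ι') (hc : Fintype.card ι ≤ Fintype.card ι')
    {G : (T.Cw S₁ → ℤ) → ℝ} (n1 : ∀ y, 0 ≤ G y) (b1 : Bb G) (hx : 0 ≤ x) {k : ℕ} (hk : 1 ≤ k)
    (H : x ^ (Fintype.card ι * k) ≤ (T.sh S).E fun y => ∏ i, G fun c => y (fc T (h.cd i) c)) :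
    (x * (1 - 2 * η) ^ 2) ^ (Fintype.card ι' * k) ≤
      (T.sh S').E fun y => ∏ i, G fun c => y (fc T (h'.cd i) c) := by
  have pd := hs.tri.pd_D
  have t := TS.lw_tri hs (hs.adm o) o
  have t' := TS.lw_tri hs (hs.adm o') o'
  rw [TS.Mas, TS.lw_Zc hs (hs.adm o) o, h.Zc b z pd o₀.pd o₁.pd] at m
  rw [TS.Mas, TS.lw_Zc hs (hs.adm o') o', h'.Zc b' z pd o₀.pd o₁.pd] at m'
  rw [TS.Mas, TS.lw_Zc hs (hs.adm o₀) o₀] at m0
  rw [TS.lw_Z] at m m' m0
  have := fun L (hL : 0 ≤ L) => h.regrid h' (st := st)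
    (fun a => TS.tp_tw0 (funext fun w => (pj_mulVec ..).trans (h.eps a w)))
    (fun a => TS.tp_tw0 (funext fun w => (pj_mulVec ..).trans (h'.eps a w))) t t'
    ((TS.lw_tri hs (hs.adm o₁) o₁).cut_low (TS.lw_low h.idl) 0).summable b b' hc (G0 := fun _ => 1)
    (fun _ _ _ => rfl) (fun _ => zero_le_one) n1 (Bb.const _) b1 hL
  have e0 := (z.S_cut (T.tw0 S₁) fun _ => 1).trans (TS.S_one _)
  rw [TS.tp_tw0 (funext fun w => (pj_mulVec ..).trans (ze w))] at e0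
  have ne : Nonempty ι := ⟨b⟩
  rw [E_sh] at H ⊢
  have z1 := (TS.tw_tri hs.cl (hs.adm o) o).Z_pos
  have z2 := (TS.tw_tri hs.cl (hs.adm o') o').Z_pos
  have z3 := dt_pos (pd_pp (p := fun c : T.Cw S₁ => ¬ p c.1.2) (TS.kw_posDef pd o₁.pd)).inv
  have z4 := dt_pos (TS.kw_posDef (S := S₀) pd o₀.pd).inv
  rw [e0] at this
  simp only [one_mul] at this
  exact num h0 h1 hx z3 z4 Fintype.card_pos (Fintype.card_pos.trans_le hc) hk z1 z2 m m' m0 H this

open Br N49.Top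

variable {κ : Type} [Fintype κ] [LinearOrder κ] {s : ℕ} {D D' : Finset (Pt κ)}

theorem shq_sub (h : D ⊆ D') {i : κ} (k : ∀ w ∈ D', w i = none ↔ w ∈ D) (V : ℕ → Pt κ → ℝ) :
    ShQ (tw s D V) (tw s D' V) (fun w => w.tr i = none) fun w => mw w (h w.mem) rfl := by
  have j : Injective fun w : Wd s D => (mw w (h w.mem) rfl : Wd s D') := fun w w' e =>
    wd_ext (congrArg (·.1.1) e) (congrArg (fun x : Wd s D' => x.tr) e)
  refine ⟨j, fun w => (k _ (h w.mem)).2 w.mem,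
    fun x hx => ⟨mw x ((k _ x.mem).1 hx) rfl, rfl⟩, fun _ => rfl, fun w m => ?_,
    fun w m k r w' hw => ?_, fun w w' => ?_⟩
  · refine if_congr (and_congr ?_ (and_congr ?_ ?_)) rfl rfl
    · rw [TS.weight_map]; rfl
    · rw [Finsupp.mapDomain_support_of_injective j, forall_mem_image]; rfl
    · rw [Finsupp.mapDomain_support_of_injective j, image_biUnion]; rfl
  · by_contra n
    exact n (((tw_r.1 r).2.1 w' hw i n).trans k)
  · simp only [diagonal_apply, j.eq_iff]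
    rfl

theorem grid_mono {q q' : κ → ℕ} (h : ∀ i, q i ≤ q' i) : grid q ⊆ grid q' := fun _ hw =>
  mem_grid.2 fun i a e => (mem_grid.1 hw i a e).trans_le (h i)

theorem sub01 (q : κ → ℕ) (i : κ) : grid (update q i 0) ⊆ grid (update q i 1) :=
  grid_mono fun j => by by_cases k : j = i <;> simp [k]

theorem mem01 (q : κ → ℕ) (i : κ) :
    ∀ w ∈ grid (update q i 1), w i = none ↔ w ∈ grid (update q i 0) := fun w hw => by
  rw [mem_grid] at hw ⊢
  refine ⟨fun k j b e => ?_, fun k => ?_⟩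
  · by_cases l : j = i
    · subst l; simp [k] at e
    · simpa [l] using hw j b e
  · cases e : w i with
    | none => rfl
    | some b => simpa using k i b e

theorem rgd1 {M C : ℕ} (hm : MAST M C) [Nonempty κ] {n : ℕ} {q q' : κ → ℕ} {V : ℕ → Pt κ → ℝ}
    {T : TS Unit} {st : T.C → ℕ} {a η x : ℝ} {f : (T.C → ℤ) → ℝ} (hs : T.Stg st M)
    (rg : T.RgS st M C n a η) (h0 : 0 < η) (h1 : η ≤ 1 / 4) (n1 : 1 ≤ n)
    (hn : s * #(grid q') ≤ n) (hv : ∀ j w, a ≤ V j w) (hq : ∀ i, 1 ≤ q i) {i : κ} (hi : q i ≤ q' i)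
    (hj : ∀ j ≠ i, q' j = q j) (hV : ∀ j a w, V j (rep i a w) = V j w) (f0 : ∀ y, 0 ≤ f y)
    (fb : Bb f) (hx : 0 ≤ x) (H : x ^ ∏ i, q i ≤
      (T.sh (tw s (grid q) V)).E fun y => ∏ ω ∈ pts q, f (T.pw _ (chi V ω) y)) :
    (x * (1 - 2 * η) ^ 2) ^ ∏ i, q' i ≤
      (T.sh (tw s (grid q') V)).E fun y => ∏ ω ∈ pts q', f (T.pw _ (chi V ω) y) := by
  have a0 : 0 < a := by
    obtain ⟨κ, lb, h, -⟩ := rg
    obtain ⟨b, -, k⟩ := h 0 (Nat.zero_le _)
    exact lt_of_lt_of_le (mul_pos (by positivity) (b.trans_le (k 0).1)) (k 0).2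
  have le : ∀ j, q j ≤ q' j := fun j => by
    by_cases k : j = i
    exacts [k ▸ hi, (hj j k).ge]
  have ok : ∀ r : κ → ℕ, (tw s (grid r) V).Ok := fun r =>
    tw_ok (dc_grid r) fun j w => a0.trans_le (hv j w)
  have ms := fun (r : κ → ℕ) (k : ∀ j, r j ≤ q' j) => hm _ _ T _ st _ n a η
    ⟨hs, hs.adm (ok r), h0, by linarith, rg, tw_sz (dc_grid r) a0 hv n1
      ((Nat.mul_le_mul_left s (card_le_card (grid_mono k))).trans hn)⟩
  have u1 : update q i 1 i = 1 := update_self ..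
  have u2 : ∀ j ≠ i, update q i 1 j = q j := fun j k => update_of_ne k ..
  have u3 : ∀ j ≠ i, update q i 1 j = q' j := fun j k => (u2 j k).trans (hj j k).symm
  have d := dcl_grid (hq i) u1 u2
  have d' := dcl_grid ((hq i).trans hi) u1 u3
  have := (d.shcl (s := s) hV).rgd (d'.shcl hV) (shq_sub (sub01 q i) (mem01 q i) V)
    (fun _ => rfl) hs (ok _) (ok _) (ok _) (ok _) h0 h1 (ms q le) (ms q' fun _ => le_rfl)
    (ms (update q i 0) fun j => by
      by_cases k : j = i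
      · simp [k]
      · simpa [k] using le j) ⟨0, hq i⟩ ⟨0, (hq i).trans hi⟩ (by simpa using hi)
    (G := fun y => ∏ ω ∈ pts (update q i 1), f (T.pw _ (chi V (rep i 0 ω)) y))
    (fun _ => prod_nonneg fun _ _ => f0 _) (Bb.prod _ fun w _ => fb.comp _) hx
    (k := ∏ j ∈ univ.erase i, q j) (one_le_prod' fun j _ => hq j)
  rw [← mul_prod_erase _ _ (mem_univ i)] at H ⊢
  rw [prod_congr rfl fun j k => hj j (ne_of_mem_erase k)]
  simp only [Fintype.card_fin] at this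
  refine (this (H.trans_eq (congrArg _ (funext fun y => ?_)))).trans_eq
    (congrArg _ (funext fun y => ?_))
  · rw [prod_pts u1 u2]
    exact prod_congr rfl fun a _ => prod_congr rfl fun ω _ => congrArg f (d.pw_em a ω y)
  · rw [prod_pts u1 u3]
    exact prod_congr rfl fun a _ => prod_congr rfl fun ω _ => congrArg f (d'.pw_em a ω y).symm

end Crest.Agent.N49.Ho

namespace Crest.Agent.N49.Un

open Br

theorem rgd : RGD := by
  intro M C hm ι _ _ _ s n q q' v T st a η x f hs rg h0 h1 n1 hn hv hq f0 fb hx H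
  have e : 0 ≤ 1 - 2 * η := by linarith
  have k : ∀ U : Finset ι, (x * (1 - 2 * η) ^ (2 * #U)) ^ ∏ i, U.piecewise q' q i ≤
      Top.GS T s (U.piecewise q' q) v f := fun U => by
    induction U using Finset.induction_on with
    | empty => simpa using H
    | insert i U hi ih =>
      rw [card_insert_of_notMem hi, mul_add, pow_add, ← mul_assoc]
      have le : ∀ (U : Finset ι) j, q j ≤ U.piecewise q' q j ∧ U.piecewise q' q j ≤ q' j :=
        fun U j => by by_cases k : j ∈ U <;> simp [k, (hq j).2]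
      refine Ho.rgd1 hm hs rg h0 h1 n1 ((Nat.mul_le_mul_left _ (card_le_card
        (Ho.grid_mono fun j => (le _ j).2))).trans hn) (V := fun j w => v j (bl w))
        (fun _ _ => hv _ _) (fun j => (hq j).1.trans (le U j).1) (i := i) ?_
        (fun j k => piecewise_insert_of_ne _ _ _ k) (fun j a w => by rw [Ho.bl_rep]) f0 fb
        (by positivity) ih
      rw [piecewise_insert_self]
      exact (le U i).2
  simpa using k univ

end Crest.Agent.N49.Un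

end
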