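import Crest.Agent.N49.Top.Sd
import Crest.Agent.N49.Tw.Ap2

/-!
# Row 49 (helper43): from a twisted law with visible points to a standard grid law (statements)
-/

set_option autoImplicit false

open Matrix MvPolynomial Finset

noncomputable section

namespace Crest.Agent.N49.Un

open Po Tw Br Top

/-- errors with the same top part -/
structure Sim (T : TS Unit) (st : T.C → ℕ) (Φ : T.C → MvPolynomial T.C ℝ) : Prop where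
  le : ∀ F, ∀ m ∈ (Φ F).support, Finsupp.weight T.lev m ≤ T.lev F ∧ Finsupp.weight st m ≤ st F
  top : ∀ F m, Finsupp.weight T.lev m = T.lev F → coeff m (Φ F) = coeff m (T.Φ F)

/-- the errors of a twisted law at a point -/
def atp (T : TS Unit) {τ : Type} (S : Sh Unit τ) (Ψ : T.Twd S) (χ : S.W → ℤ) :
    T.C → MvPolynomial T.C ℝ := fun F => MvPolynomial.map (eval fun w => (χ w : ℝ)) (Ψ F)

section
variable {τ τ0 Ω : Type}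

/-- `S` maps onto the visible ring `S0`, compatibly with the points in `P` -/
def Vm (S : Sh Unit τ) (χ : Ω → S.W → ℤ) (S0 : Sh Unit τ0) (χ0 : Ω → S0.W → ℤ) (P : Finset Ω)
    (n : ℕ) : Prop :=
  ∃ (φ : Matrix S0.W S.W ℤ) (ψ : Matrix S.W S0.W ℤ) (J : Type) (_ : Fintype J) (_ : DecidableEq J)
    (N : Matrix S.W J ℤ) (Q : Matrix J S.W ℤ) (cj : J → Unit →₀ ℕ),
    S.Spl (S0.setK (rl φ * S.K * (rl φ)ᵀ)) n φ ψ N Q cj ∧ (∀ ω ∈ P, χ0 ω ᵥ* φ = χ ω) ∧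
      ∀ w' w, |φ w' w| ≤ n ∧ |ψ w w'| ≤ n

/-- the points in `P` separate the elements of `S0` -/
def Sep (s : ℕ) (S0 : Sh Unit τ0) (χ0 : Ω → S0.W → ℤ) (P : Finset Ω) : Prop :=
  (∀ ω ∈ P, S0.Pt s (χ0 ω)) ∧ ∀ (x : S0.W → ℝ) (j : ℕ), (∀ w, x w ≠ 0 → S0.dg w = j) →
    (∀ ω ∈ P, ∑ w, (χ0 ω w : ℝ) * x w = 0) → x = 0

/-- the expectation of a function of the points -/
def EP (T : TS Unit) (S : Sh Unit τ) (Ψ : T.Twd S) (χ : Ω → S.W → ℤ) (P : Finset Ω)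
    (f : Ω → (T.C → ℤ) → ℝ) : ℝ := (T.tw S Ψ).E fun y => ∏ ω ∈ P, f ω (T.pw S (χ ω) y)

end

/-- `S0` is a visible ring of the grid `q` -/
structure Vis {ι τ0 : Type} [Fintype ι] [LinearOrder ι] (s : ℕ) (q : ι → ℕ) (S0 : Sh Unit τ0)
    (χ0 : Pt ι → S0.W → ℤ) (n : ℕ) : Prop where
  sz : S0.Sz n 0
  sep : Sep s S0 χ0 (pts q)
  vm : ∀ v : ℕ → Finset ι → ℝ, (∀ j B, 0 < v j B) → Vm (gr s q v) (gp s q v) S0 χ0 (pts q) n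

/-- same top part: same stages, regularity and costs -/
def SIM : Prop := ∀ (T : TS Unit) (st : T.C → ℕ) (M : ℕ), T.Stg st M →
  (∀ (τ : Type) (S : Sh Unit τ) (Ψ : T.Twd S) (χ : S.W → ℤ), T.Adm S st Ψ →
    Sim T st (atp T S Ψ χ)) ∧
  ∀ Φ, Sim T st Φ → (T.setΦ Φ).Stg st M ∧ (T.setΦ Φ).D = T.D ∧
    (∀ C n a η, T.RgS st M C n a η → (T.setΦ Φ).RgS st M C n a η) ∧
    ∀ (τ : Type) (S : Sh Unit τ) (Ψ : T.Twd S), (T.setΦ Φ).Adm S st Ψ ↔ T.Adm S st Ψ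

/-- transfer to a narrower shape with the same visible ring -/
def TRF : Prop := ∀ M C : ℕ, MAST M C → MARHT M C → ∀ (τ1 τ2 τ0 Ω : Type) (T : TS Unit)
  (st : T.C → ℕ) (S1 : Sh Unit τ1) (S2 : Sh Unit τ2) (S0 : Sh Unit τ0) (χ1 : Ω → S1.W → ℤ)
  (χ2 : Ω → S2.W → ℤ) (χ0 : Ω → S0.W → ℤ) (P : Finset Ω) (n : ℕ) (a a1 a2 b η B : ℝ)
  (Ψ1 : T.Twd S1) (f : Ω → (T.C → ℤ) → ℝ), T.Stg st M → T.RgS st M C n a η → 0 < η → η ≤ 1 / 4 →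
  T.Adm S1 st Ψ1 → S1.Sz n a1 → S2.Sz n a2 → S0.Sz n 0 → Vm S1 χ1 S0 χ0 P n →
  Vm S2 χ2 S0 χ0 P n → 1 ≤ n → (∀ x, qf S2.K x ≤ b * ∑ w, x w ^ 2) → a2 ≤ b → b * n ^ 8 ≤ a1 →
  a * n ^ 4 ≤ a2 → 1 ≤ B → (∀ ω y, 0 ≤ f ω y ∧ f ω y ≤ B) →
    ∃ Ψ2, T.Adm S2 st Ψ2 ∧ EP T S1 Ψ1 χ1 P f ≤ EP T S2 Ψ2 χ2 P f + 5 * η * B ^ #P

/-- two twists with the same errors at the points -/
def UNTW : Prop := ∀ M C : ℕ, MARHT M C → ∀ (τ τ0 Ω : Type) (T : TS Unit) (st : T.C → ℕ)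
  (S : Sh Unit τ) (S0 : Sh Unit τ0) (χ : Ω → S.W → ℤ) (χ0 : Ω → S0.W → ℤ) (P : Finset Ω)
  (s n : ℕ) (a η B : ℝ) (Ψ Ψ' : T.Twd S) (f : Ω → (T.C → ℤ) → ℝ), T.Hy S st Ψ M C n a η →
  T.Adm S st Ψ' → (∀ F, T.lev F ≤ s) → Vm S χ S0 χ0 P n → Sep s S0 χ0 P →
  (∀ ω ∈ P, atp T S Ψ (χ ω) = atp T S Ψ' (χ ω)) → (∀ ω y, |f ω y| ≤ B) →
    |EP T S Ψ χ P f - EP T S Ψ' χ P f| ≤ 2 * η * B ^ #P

/-- Gowers–Hölder in all the blocks: one point is replicated -/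
def GHT : Prop := ∀ (ι : Type) [Fintype ι] [LinearOrder ι] [Nonempty ι] (s M : ℕ) (q : ι → ℕ)
  (v : ℕ → Finset ι → ℝ) (T : TS Unit) (st : T.C → ℕ) (Ψ : T.Twd (gr s q v))
  (f : Pt ι → (T.C → ℤ) → ℝ), (∀ i, 1 ≤ q i) → (∀ j B, 0 < v j B) → T.Stg st M →
  T.Adm (gr s q v) st Ψ → (∀ ω y, 0 ≤ f ω y) → (∀ ω, Bb (f ω)) →
    ∃ ω ∈ pts q, ∃ Ψ', T.Adm (gr s q v) st Ψ' ∧
      (∀ ω' ∈ pts q, atp T _ Ψ' (gp s q v ω') = atp T _ Ψ (gp s q v ω)) ∧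
      (T.tw (gr s q v) Ψ).S (PF T s q v f) ≤ (T.tw (gr s q v) Ψ').S (PF T s q v fun _ => f ω)

/-- more clones -/
def RGD : Prop := ∀ M C : ℕ, MAST M C → ∀ (ι : Type) [Fintype ι] [LinearOrder ι] [Nonempty ι]
  (s n : ℕ) (q q' : ι → ℕ) (v : ℕ → Finset ι → ℝ) (T : TS Unit) (st : T.C → ℕ) (a η x : ℝ)
  (f : (T.C → ℤ) → ℝ), T.Stg st M → T.RgS st M C n a η → 0 < η → η ≤ 1 / 4 → 1 ≤ n →
  s * #(grid q') ≤ n → (∀ j B, a ≤ v j B) → (∀ i, 1 ≤ q i ∧ q i ≤ q' i) → (∀ y, 0 ≤ f y) → Bb f →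
  0 ≤ x → x ^ ∏ i, q i ≤ GS T s q v f →
    (x * (1 - 2 * η) ^ (2 * Fintype.card ι)) ^ ∏ i, q' i ≤ GS T s q' v f

/-- **from any twisted law with visible points to the standard law of one point tower** -/
def UNIF : Prop := ∀ M C : ℕ, MAST M C → MARHT M C → ∀ (ι τ τ0 : Type) [Fintype ι] [LinearOrder ι]
  [Nonempty ι] (s n : ℕ) (q q' : ι → ℕ) (v : ℕ → Finset ι → ℝ) (T : TS Unit) (st : T.C → ℕ)
  (S : Sh Unit τ) (χ : Pt ι → S.W → ℤ) (S0 : Sh Unit τ0) (χ0 : Pt ι → S0.W → ℤ) (Ψ : T.Twd S)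
  (a a1 η B x δ : ℝ) (f : Pt ι → (T.C → ℤ) → ℝ), T.Stg st M → (∀ F, T.lev F ≤ s) → 1 ≤ s →
  T.RgS st M C n a η → 0 < η → η ≤ 1 / 4 → T.Adm S st Ψ → S.Sz n a1 → Vis s q S0 χ0 n →
  Vm S χ S0 χ0 (pts q) n → s * #(grid q') ≤ n → (∀ i, 1 ≤ q i ∧ q i ≤ q' i) →
  (∀ j B, a * n ^ 4 ≤ v j B ∧ v j B * n ^ 8 ≤ a1) → 1 ≤ B → (∀ ω y, 0 ≤ f ω y ∧ f ω y ≤ B) →
  1 ≤ x → η * (10 * B ^ (∏ i, q i) + 4 * Fintype.card ι) ≤ δ → δ ≤ 1 →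
  x ^ ∏ i, q i ≤ EP T S Ψ χ (pts q) f →
    ∃ ω ∈ pts q, ∃ Φ, Sim T st Φ ∧ (x * (1 - δ)) ^ ∏ i, q' i ≤ GS (T.setΦ Φ) s q' v (f ω)

/-- visible rings exist; top-word rings with extra single blocks map onto them -/
def VISX : Prop := ∀ (ι : Type) [Fintype ι] [LinearOrder ι] [Nonempty ι] (s n : ℕ) (q : ι → ℕ),
  (∀ i, 1 ≤ q i) → 1 ≤ s → s * #(grid q) ≤ n →
  ∃ (τ0 : Type) (S0 : Sh Unit τ0) (χ0 : Pt ι → S0.W → ℤ), Vis s q S0 χ0 n ∧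
    ∀ (ι1 : Type) [Fintype ι1] [LinearOrder ι1] (e : ι → ι1) (q1 : ι1 → ℕ) (V : ℕ → Pt ι1 → ℝ),
      Function.Injective e → (∀ i, q1 (e i) = q i) → (∀ i, i ∉ Set.range e → q1 i = 1) →
      (∀ j w, 0 < V j w) → s * #(grid q1) ≤ n →
      Vm (Br.tw s (grid q1) V) (fun ω => chi V (Function.extend e ω fun _ => some 0)) S0 χ0 (pts q) n

end Crest.Agent.N49.Un

end
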