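import Crest.Agent.N49.Un.Glue
import Crest.Agent.N49.Top.Xs

/-!
# Row 49 (helper43): pre-states, and the grid state they give
-/

set_option autoImplicit false

open Matrix MvPolynomial Finset

noncomputable section

namespace Crest.Agent.N49.Un

open Po Tw Br

/-- **pre-states**: any twisted law with visible points; forward constants `E`, budget `b` -/
def Pre (s d N m : ℕ) (A : Finset ℕ) (α ε : ℝ) (E b : ℕ) (c : ℕ → ℕ) : Prop :=
  ∃ (T : TS Unit) (π : T.C → ℤ) (st : T.C → ℕ) (M : ℕ) (q : Fin (d + 1) → ℕ) (τ τ0 : Type)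
    (S : Sh Unit τ) (χ : Pt (Fin (d + 1)) → S.W → ℤ) (S0 : Sh Unit τ0)
    (χ0 : Pt (Fin (d + 1)) → S0.W → ℤ) (Ψ : T.Twd S) (x : Pt (Fin (d + 1)) → ℤ),
    Top.Cs0 s N ⟨T, π, 0⟩ c ∧ T.Stg st M ∧ M ≤ E ∧
    T.RgS st M 1 (m ^ b) (1 / 2 ^ m ^ b) (1 / 2 ^ m ^ b) ∧ (∀ i, 1 ≤ q i ∧ q i ≤ m ^ E) ∧
    S.Sz (m ^ E) (1 / 2 ^ m ^ E) ∧ T.Adm S st Ψ ∧ Vis s q S0 χ0 (m ^ E) ∧
    Vm S χ S0 χ0 (pts q) (m ^ E) ∧
    (1 + ε) ^ ∏ i, q i ≤ EP T S Ψ χ (pts q) fun ω => Top.fA ⟨T, π, x ω⟩ A α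

/-- the Master lemma for all the numbers of stages -/
def MA : Prop := ∀ M, ∃ C, MAST M C ∧ MARHT M C

/-- **a pre-state gives a state with the same costs** -/
def UNP : Prop := ∀ (s d E : ℕ) (ε : ℝ), 1 ≤ s → 0 < ε → ∃ ε' : ℝ, 0 < ε' ∧ ∀ b', ∃ b,
  ∀ (N m : ℕ) (A : Finset ℕ) (α : ℝ) (c : ℕ → ℕ), 2 ≤ m → 1 / 2 ^ m ≤ α → Top.Xs s m c ≤ 2 * m →
    Pre s d N m A α ε E b c → ∃ g : Top.Gs d, g.c = c ∧ g.P s d N m A α ε' b'

theorem Vm.mono {τ τ0 Ω : Type} {S : Sh Unit τ} {χ : Ω → S.W → ℤ} {S0 : Sh Unit τ0}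
    {χ0 : Ω → S0.W → ℤ} {P : Finset Ω} {n n' : ℕ} (h : Vm S χ S0 χ0 P n) (e : n ≤ n') :
    Vm S χ S0 χ0 P n' := by
  obtain ⟨φ, ψ, J, _, _, N, Q, cj, H, a, b⟩ := h
  have k : (n : ℤ) ≤ n' := by exact_mod_cast e
  exact ⟨φ, ψ, J, _, _, N, Q, cj, { H with ht := fun w w' j =>
    let ⟨a, b, c, d⟩ := H.ht w w' j
    ⟨a.trans k, b.trans k, c.trans k, d.trans k⟩ }, a,
    fun w' w => ⟨(b w' w).1.trans k, (b w' w).2.trans k⟩⟩

theorem Vis.mono {ι τ0 : Type} [Fintype ι] [LinearOrder ι] {s : ℕ} {q : ι → ℕ} {S0 : Sh Unit τ0}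
    {χ0 : Pt ι → S0.W → ℤ} {n n' : ℕ} (h : Vis s q S0 χ0 n) (e : n ≤ n') : Vis s q S0 χ0 n' :=
  ⟨h.sz.mono e le_rfl, h.sep, fun v k => (h.vm v k).mono e⟩

section num
variable {m : ℕ}

theorem le_pw (h : 2 ≤ m) (k : ℕ) : k ≤ m ^ k :=
  Nat.lt_two_pow_self.le.trans (Nat.pow_le_pow_left h k)

theorem pw_le (h : 2 ≤ m) {a b : ℕ} (e : a ≤ b) : m ^ a ≤ m ^ b :=
  Nat.pow_le_pow_right (by omega) e

theorem pw_add (h : 2 ≤ m) {a b c : ℕ} (e : a < c) (e' : b < c) : m ^ a + m ^ b ≤ m ^ c := by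
  obtain ⟨c, rfl⟩ := Nat.exists_eq_succ_of_ne_zero (show c ≠ 0 by omega)
  have := pw_le h (show a ≤ c by omega)
  have := pw_le h (show b ≤ c by omega)
  have := Nat.mul_le_mul_left (m ^ c) h
  rw [pow_succ]; omega

theorem pw_one (h : 2 ≤ m) (a : ℕ) : m ^ a + 1 ≤ m ^ (a + 1) := by
  simpa using pw_add h (show a < a + 1 by omega) (show 0 < a + 1 by omega)

theorem half_le {a b : ℕ} (e : a ≤ b) : (1 : ℝ) / 2 ^ b ≤ 1 / 2 ^ a :=
  one_div_le_one_div_of_le (by positivity) (pow_le_pow_right₀ one_le_two e)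

theorem half_mul {a b k x : ℕ} (hx : x ≤ 2 ^ k) (e : a + k ≤ b) :
    (1 : ℝ) / 2 ^ b * x ≤ 1 / 2 ^ a := by
  have : (x : ℝ) ≤ 2 ^ k := by exact_mod_cast hx
  calc _ ≤ (1 : ℝ) / 2 ^ (a + k) * 2 ^ k := mul_le_mul (half_le e) this (by positivity) (by positivity)
    _ = _ := by rw [pow_add]; field_simp

theorem rho_bd (h : 2 ≤ m) {a s : ℕ} (s1 : 1 ≤ s) (j : ℕ) :
    (1 : ℝ) / 2 ^ m ^ (a + s) ≤ (1 / 2 ^ m ^ a) ^ min (max j 1) s ∧
      ((1 : ℝ) / 2 ^ m ^ a) ^ min (max j 1) s ≤ 1 / 2 ^ m ^ a := by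
  rw [_root_.one_div_pow, ← pow_mul]
  exact ⟨half_le (by rw [pow_add]; exact Nat.mul_le_mul_left _ ((min_le_right _ _).trans (le_pw h s))),
    half_le (Nat.le_mul_of_pos_right _ (by omega))⟩

end num

theorem MA.le (h : MA) (E : ℕ) : ∃ C, ∀ M ≤ E, MAST M C ∧ MARHT M C := by
  choose C a b using h
  exact ⟨∑ M ∈ range (E + 1), C M, fun M k =>
    have := single_le_sum (f := C) (fun _ _ => Nat.zero_le _) (mem_range.2 (Nat.lt_succ_of_le k))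
    ⟨(a M).mono this, (b M).mono this⟩⟩

theorem fA_le {V : Ctr} {A : Finset ℕ} {α : ℝ} {m : ℕ} (h : 1 / 2 ^ m ≤ α) (y : V.T.C → ℤ) :
    0 ≤ Top.fA V A α y ∧ Top.fA V A α y ≤ 2 ^ m := by
  have a : 0 < α := lt_of_lt_of_le (by positivity) h
  refine ⟨div_nonneg (ind_nonneg _ _) a.le, (div_le_iff₀ a).2 ((ind_le _ _).trans ?_)⟩
  rwa [div_le_iff₀ (by positivity), mul_comm] at h

theorem rg_mono {T : TS Unit} {st : T.C → ℕ} {M a b : ℕ} (hs : T.Stg st M)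
    (h : T.RgS st M 1 b (1 / 2 ^ b) (1 / 2 ^ b)) (e : a ≤ b) :
    T.RgS st M 1 a (1 / 2 ^ a) (1 / 2 ^ a) := by
  have k : (a : ℝ) ≤ b := by exact_mod_cast e
  refine h.mono'' hs.tri (by positivity) (by simpa using half_le (Nat.zero_le b)) le_rfl
    (by simpa using k) ?_ ?_
  · exact mul_le_mul (by simpa using k) (half_le e) (by positivity) (by positivity)
  · have := Real.log_le_log (by positivity) (inv_anti₀ (by positivity) (half_le e))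
    linarith

theorem cs0_set {s N : ℕ} {T : TS Unit} {π : T.C → ℤ} {x x' : ℤ} {c : ℕ → ℕ}
    {Φ : T.C → MvPolynomial T.C ℝ} (h : Top.Cs0 s N ⟨T, π, x⟩ c) (t : (T.setΦ Φ).Tri)
    (e : (T.setΦ Φ).D = T.D) : Top.Cs0 s N ⟨T.setΦ Φ, π, x'⟩ c := by
  have a : ∀ l, (T.setΦ Φ).ct l = T.ct l := fun l => congrArg (fun D : Matrix T.C T.C ℝ =>
    th (D.submatrix (Subtype.val : {c // T.lev c = l} → T.C) Subtype.val) 0) e
  have b : (T.setΦ Φ).g1 π = T.g1 π := congrArg (fun D : Matrix T.C T.C ℝ =>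
    Sp.gk (D.submatrix (Subtype.val : {c // T.lev c = 1} → T.C) Subtype.val)⁻¹
      {n | (fun c : {c // T.lev c = 1} => π c.1) ⬝ᵥ n = 0}) e
  exact ⟨⟨t, h.ok.2.1, h.ok.2.2⟩, h.R, fun l k => (a l).trans_le (h.ct l k),
    (congrArg (fun z => (N : ℝ) * z) b).trans_le h.g⟩

theorem unp_of (ma : MA) (sim : SIM) (un : UNIF) : UNP := by
  intro s d E ε s1 ε0
  obtain ⟨C, hC⟩ := ma.le E
  obtain ⟨E1, hE1⟩ : ∃ E1, E1 = s + (E + 1) * (d + 1) := ⟨_, rfl⟩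
  have e1 : E ≤ E1 := by nlinarith
  obtain ⟨k0, hk⟩ := pow_unbounded_of_one_lt ((14 + 4 * d) * (2 * (1 + ε) / ε)) one_lt_two
  set E3 := 8 * E1 + E + 1 with hE3
  set E2 := E3 + s with hE2
  have i0 : (0 : ℝ) < E2 := by positivity
  refine ⟨min (ε / 2) (E2 : ℝ)⁻¹, by positivity, fun b' => ⟨E2 + 4 * E1 + (E1 + 1) * C + k0 +
    E * (d + 1) + 2 * b' + 2, fun N m A α c m2 hα hX h => ?_⟩⟩
  set b := E2 + 4 * E1 + (E1 + 1) * C + k0 + E * (d + 1) + 2 * b' + 2 with hb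
  obtain ⟨T, π, st, M, q, τ, τ0, S, χ, S0, χ0, Ψ, x, cs, hs, hM, rg, hq, sz, ad, vs, vm, ex⟩ := h
  have n1 : m ^ E ≤ m ^ E1 := pw_le m2 e1
  have r1 : (((m ^ E1 : ℕ) : ℝ) + 1) ^ C ≤ ((m ^ b : ℕ) + 1) ^ 1 := by
    have := (Nat.pow_le_pow_left (pw_one m2 E1) C).trans_eq (pow_mul _ _ _).symm
    have := (this.trans (pw_le m2 (show _ ≤ b by omega))).trans (Nat.le_succ _)
    rw [pow_one]; exact_mod_cast this
  have η1 : (1 : ℝ) / 2 ^ m ^ b ≤ 1 / 2 ^ 2 :=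
    half_le ((le_pw m2 2).trans (pw_le m2 (by omega)))
  have p8 : ∀ k, (m ^ E1) ^ k ≤ 2 ^ m ^ (k * E1) := fun k => by
    rw [← pow_mul, mul_comm]; exact Nat.lt_two_pow_self.le
  have hp : ∏ i, q i ≤ m ^ (E * (d + 1)) := by
    simpa [pow_mul] using prod_le_pow_card univ q _ fun i _ => (hq i).2
  obtain ⟨ω, -, Φ, sm, k⟩ := un M C (hC M hM).1 (hC M hM).2 _ _ _ s (m ^ E1) q (fun _ => m ^ E)
    (fun j _ => (1 / 2 ^ m ^ E3) ^ min (max j 1) s) T st S χ S0 χ0 Ψ _ _ _ (2 ^ m) (1 + ε) (ε / (2 * (1 + ε))) _ hs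
    cs.ok.2.1 s1 (rg.mono' hs.tri (by positivity) (by linarith) r1
      (mul_le_mul_of_nonneg_right r1 (by positivity))) (by positivity) (by linarith) ad
    (sz.mono n1 le_rfl) (vs.mono n1) (vm.mono n1) (by
      rw [card_grid, prod_const, card_univ, Fintype.card_fin, hE1, pow_add m s, pow_mul]
      exact Nat.mul_le_mul (le_pw m2 s) (Nat.pow_le_pow_left (pw_one m2 E) _)) hq
    (fun j _ => ⟨le_trans (by exact_mod_cast half_mul (p8 4) (pw_add m2 (by omega) (by omega)))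
      (rho_bd m2 s1 j).1, (mul_le_mul_of_nonneg_right (rho_bd m2 s1 j).2 (by positivity)).trans
        (by exact_mod_cast half_mul (p8 8) (pw_add m2 (by omega) (by omega)))⟩)
    (one_le_pow₀ one_le_two) (fun ω => fA_le (V := ⟨T, π, x ω⟩) hα) (by linarith) (by
      have a : ((2 : ℝ) ^ m) ^ ∏ i, q i ≤ 2 ^ m ^ (E * (d + 1) + 1) := by
        rw [← pow_mul, pow_succ' m]
        exact pow_le_pow_right₀ one_le_two (Nat.mul_le_mul_left m hp)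
      have a1 : (1 : ℝ) ≤ 2 ^ m ^ (E * (d + 1) + 1) := one_le_pow₀ one_le_two
      have a2 := half_mul (x := 2 ^ m ^ (E * (d + 1) + 1)) (a := k0) (b := m ^ b) le_rfl
        ((Nat.add_le_add_right (le_pw m2 k0) _).trans (pw_add m2 (by omega) (by omega)))
      have a3 : (14 + 4 * d) * ((1 : ℝ) / 2 ^ k0) ≤ ε / (2 * (1 + ε)) := by
        rw [mul_one_div, div_le_div_iff₀ (by positivity) (by positivity)]
        rw [← mul_div_assoc, div_lt_iff₀ ε0] at hk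
        linarith
      push_cast at a2
      rw [Fintype.card_fin]
      push_cast
      refine le_trans ?_ ((mul_le_mul_of_nonneg_left a2 (by positivity)).trans a3)
      rw [mul_left_comm]
      refine mul_le_mul_of_nonneg_left ?_ (by positivity)
      nlinarith [mul_le_mul_of_nonneg_left a1 (show (0 : ℝ) ≤ 4 * (d + 1) by positivity)])
    (by rw [div_le_one (by positivity)]; linarith) ex
  obtain ⟨c1, c2, c3, -⟩ := (sim T st M hs).2 Φ sm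
  have fl : E2 ≤ ⌊(min (ε / 2) (E2 : ℝ)⁻¹)⁻¹⌋₊ :=
    Nat.le_floor (le_inv_of_le_inv₀ (by positivity) (min_le_right _ _))
  have xp : ∀ a ≤ E2, m ^ a ≤ Top.Xs s m c ^ ⌊(min (ε / 2) (E2 : ℝ)⁻¹)⁻¹⌋₊ := fun a h =>
    (pw_le m2 (h.trans fl)).trans (Nat.pow_le_pow_left (Top.le_Xs c) _)
  refine ⟨⟨⟨T.setΦ Φ, π, x ω⟩, st, M, m ^ E, fun j _ => (1 / 2 ^ m ^ E3) ^ min (max j 1) s, c⟩,
    rfl,
    cs0_set cs c1.cl.1 c2, c1, hM.trans (le_trans (by omega) fl), rg_mono c1 (c3 _ _ _ _ rg) ?_,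
    Nat.one_le_pow _ _ (by omega), xp E (by omega), 
    fun j _ => (half_le (xp E2 le_rfl)).trans (rho_bd m2 s1 j).1,
    fun j _ => (rho_bd m2 s1 j).2.trans (by simpa using half_le (Nat.zero_le _)), fun _ _ _ => rfl,
    ⟨1 / 2 ^ m ^ E3, by positivity, fun j h _ => by
      rw [mem_Icc] at h
      simp only [max_eq_left h.1, min_eq_left h.2]⟩, le_trans ?_ k⟩
  · refine (Nat.pow_le_pow_left (hX.trans (Nat.mul_le_mul_right m m2)) _).trans ?_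
    rw [← sq, ← pow_mul]
    exact pw_le m2 (by omega)
  · rw [prod_const, card_univ, Fintype.card_fin]
    refine pow_le_pow_left₀ (by positivity) ?_ _
    have : (1 + ε) * (1 - ε / (2 * (1 + ε))) = 1 + ε / 2 := by field_simp; ring
    rw [this]
    linarith [min_le_left (ε / 2) (E2 : ℝ)⁻¹]

end Crest.Agent.N49.Un

end
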