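import Crest.Agent.N49.Un.Defs
import Crest.Agent.N49.Br.Vtw

/-!
# Row 49 (helper4): visible rings exist
-/

set_option autoImplicit false
set_option linter.unusedSectionVars false

open Finset Matrix

noncomputable section

namespace Crest.Agent.N49.Un

open Po Tw Br Br.Vs

variable {ι ι1 : Type} [Fintype ι] [LinearOrder ι] [Fintype ι1] [LinearOrder ι1] {s n : ℕ}
  {q : ι → ℕ} {q1 : ι1 → ℕ} {ρ : ι → ι1}

/-- the words of one level are independent on the points (real form) -/
theorem vis_indR (hq : ∀ i, 0 < q i) {x : Vw s q → ℝ} {j : ℕ} (hx : ∀ w, x w ≠ 0 → w.lv = j)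
    (h : ∀ ω ∈ pts q, ∑ w, (cv ω w : ℝ) * x w = 0) : x = 0 := by
  have k : ∀ n, ∀ w : Vw s q, #(bl w.tr) = n → x w = 0 := fun n => by
    induction n using Nat.strong_induction_on with
    | _ n ih =>
    intro w hw
    by_contra c
    have e := h (fun i => some ((w.tr i).getD 0)) (mem_pts.2 fun i => ⟨_, by
      cases t : w.tr i with
      | none => exact hq i
      | some a => exact mem_grid.1 w.1.2.2 i a t, rfl⟩)
    rw [Fintype.sum_eq_single w, cv, if_pos, Int.cast_one, one_mul] at e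
    · exact c e
    · intro i hi
      obtain ⟨a, t⟩ := Option.ne_none_iff_exists'.1 hi
      simp [t]
    · intro w' n
      by_contra z
      have l : Le w'.tr w.tr := fun i hi => by
        have t : Le w'.tr fun i => some ((w.tr i).getD 0) := by
          by_contra t; exact left_ne_zero_of_mul z (by rw [cv, if_neg t, Int.cast_zero])
        have t1 := t i hi
        cases t2 : w.tr i with
        | none => exact absurd (show w'.tr i = some 0 by simpa [t2] using t1) (w'.2.1 i)
        | some a => simpa [t2] using t1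
      refine right_ne_zero_of_mul z (ih _ ?_ w' rfl)
      rw [← hw]
      exact card_lt_card (l.bl.ssubset_of_ne fun b => n (ext'
        ((hx _ (right_ne_zero_of_mul z)).trans (hx _ c).symm) (l.eq (.refl _) b)))
  exact funext fun w => k _ w rfl

theorem vis_sep (hq : ∀ i, 0 < q i) (hs : 1 ≤ s) (K : Matrix (Vw s q) (Vw s q) ℝ) :
    Sep s (vis s q K) cv (pts q) :=
  ⟨fun ω _ => vis_pt ω hs, fun _ _ hx h =>
    vis_indR hq (fun w c => (vis_dg (K := K) w).symm.trans (hx w c)) h⟩

theorem card_vw_lt [Nonempty ι] (hq : ∀ i, 0 < q i) (hs : 1 ≤ s) :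
    Fintype.card (Vw s q) < s * #(grid q) :=
  (Fintype.card_subtype_lt (x := (⟨0, hs⟩, ⟨fun _ => some 0, mem_grid.2 fun i _ e =>
    Option.some.inj e ▸ hq i⟩)) fun h => h.1 (Classical.arbitrary ι) rfl).trans_eq (by simp)

theorem vis_sz0 (h1 : 1 ≤ n) (hn : Fintype.card (Vw s q) ≤ n) : (vis s q 1).Sz n 0 :=
  vis_sz PosDef.one (fun _ _ h => by rw [of_not_not fun e => h (one_apply_ne e)])
    (fun x => by rw [zero_mul]; exact qf_nonneg PosDef.one x) h1 hn

/-- the top-word rings map onto the visible ring -/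
theorem vm_tw [Nonempty ι] (h : Xt ρ q q1) {V : ℕ → Pt ι1 → ℝ} (hV : ∀ j w, 0 < V j w) (hs : 1 ≤ s)
    (hn : s * #(grid q) ≤ n) (K : Matrix (Vw s q) (Vw s q) ℝ) :
    Vm (Br.tw s (grid q1) V) (fun ω => chi V (up ρ ω)) (vis s q K) cv (pts q) n := by
  have : Nonempty ι1 := ⟨ρ (Classical.arbitrary ι)⟩
  have c := card_vw_lt h.pos hs
  refine ⟨ph s q q1 ρ, vs s q q1 ρ, _, _, _, _, _, _,
    spl_of (S := Br.tw s (grid q1) V) (S' := vp s q q1 ρ V) (a := 1) (b := 1) Sd
    (tw_ok (dc_grid q1) hV)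
    (vis_ok (Mh.posDef_conj (tw_ok (dc_grid q1) hV).pd h.ph_ps) fun _ _ => h.push_lv hV)
    (h.hm hV _) rfl h.ph_ps (fun _ _ e => ⟨(h.ps_sd e).1, by rw [tw_cd, vis_cd, (h.ps_sd e).2]⟩)
    h.sd_inj abs_vs abs_ph (by omega) (by omega) (by
      change 1 + Fintype.card (Vw s q) * (1 * 1) ≤ n
      omega) h.kg, fun _ hω => h.cv_ph' hω, fun _ _ =>
      ⟨(abs_ph _ _).trans (by omega), (abs_vs _ _).trans (by omega)⟩⟩

/-- **the concrete visible ring** -/
theorem vis_vis [Nonempty ι] (hq : ∀ i, 0 < q i) (hs : 1 ≤ s) (hn : s * #(grid q) ≤ n) :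
    Vis s q (vis s q 1) cv n where
  sz := have := card_vw_lt hq hs; vis_sz0 (by omega) (by omega)
  sep := vis_sep hq hs _
  vm v hv := by
    have := vm_tw (V := fun j w => v j (bl w)) (Xt.refl hq) (fun _ _ => hv _ _) hs hn 1
    simp only [up, Function.extend_id] at this
    exact this

theorem visx : VISX := fun _ _ _ _ _ _ _ hq hs hn =>
  ⟨_, vis _ _ 1, cv, vis_vis hq hs hn, fun _ _ _ _ _ _ a b c hV _ => vm_tw ⟨a, b, c, hq⟩ hV hs hn 1⟩

end Crest.Agent.N49.Un

end
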