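import Crest.Agent.N49.Un.Defs
import Crest.Agent.N49.Tw.Exp

/-! # Row 49 (helper29): twists with the same errors at the visible points -/

set_option autoImplicit false

open Matrix MvPolynomial Finset

noncomputable section

namespace Crest.Agent.N49.Un

open Po Tw TS

namespace Uw

variable {σ τ τ' : Type} [DecidableEq σ] {T : TS σ} {S : Sh σ τ} {S' : Sh σ τ'}
  {φ : Matrix S'.W S.W ℤ}

theorem pw_hm (c : ∀ w' w, φ w' w ≠ 0 → S'.cd w' = S.cd w) (χ : S'.W → ℤ) (y : T.Cw S → ℤ) :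
    T.pw S' χ (T.hm S S' φ y) = T.pw S (χ ᵥ* φ) y := by
  funext F
  have e : ∀ p' ∈ univ.filter fun p' : T.Cw S' => p'.1.1 = F, χ p'.1.2 * T.hm S S' φ y p' =
      ∑ p : T.Cw S with p.1.1 = F, χ p'.1.2 * φ p'.1.2 p.1.2 * y p := fun p' hp => by
    rw [hm, (mem_filter.1 hp).2, mul_sum]
    exact sum_congr rfl fun _ _ => (mul_assoc _ _ _).symm
  rw [pw, pw, sum_congr rfl e, sum_comm]
  refine sum_congr rfl fun p hp => ?_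
  rw [← sum_mul, sum_cw F fun w' => χ w' * φ w' p.1.2, sum_filter_of_ne fun w' _ z => by
    rw [c w' p.1.2 (right_ne_zero_of_mul z), p.2, (mem_filter.1 hp).2]]
  rfl

omit [DecidableEq σ] in
theorem eval_pu (χ : S'.W → ℤ) : (eval fun w => (χ w : ℝ)).comp (S.pu S' φ) =
    eval fun w => ((χ ᵥ* φ) w : ℝ) := by
  refine ringHom_ext (fun a => ?_) fun w => ?_
  · simp [Sh.pu]
  · simp [Sh.pu, Sh.el, vecMul, dotProduct, mul_comm]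

omit [DecidableEq σ] in
theorem eval_tp (χ : S'.W → ℤ) (Ψ : T.Twd S) (Y : T.C → MvPolynomial S'.W ℝ) (F : T.C) :
    eval (fun w => (χ w : ℝ)) (eval Y (T.tp S S' φ Ψ F)) =
      eval (fun c => eval (fun w => (χ w : ℝ)) (Y c))
        (MvPolynomial.map (eval fun w => ((χ ᵥ* φ) w : ℝ)) (Ψ F)) := by
  rw [tp, MvPolynomial.eval_map, MvPolynomial.eval_map, eval₂_comp_left, eval_pu]
  rfl

theorem u_eq {Ω : Type} {T : TS Unit} {st : T.C → ℕ} {S : Sh Unit τ} {S1 : Sh Unit τ'}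
    {φ : Matrix S1.W S.W ℤ} {χ0 : Ω → S1.W → ℤ} {P : Finset Ω} {s : ℕ} {Ψ Ψ' : T.Twd S}
    (ht : T.Tri) (o : S1.Ok) (H : S.Hm S1 φ) (a1 : T.Adm S st Ψ) (a2 : T.Adm S st Ψ')
    (hs : ∀ F, T.lev F ≤ s) (sp : Sep s S1 χ0 P)
    (hΨ : ∀ ω ∈ P, atp T S Ψ (χ0 ω ᵥ* φ) = atp T S Ψ' (χ0 ω ᵥ* φ)) (y : T.Cw S1 → ℝ) :
    (T.tw S1 (T.tp S S1 φ Ψ)).u y = (T.tw S1 (T.tp S S1 φ Ψ')).u y := funext fun p : T.Cw S1 => by
  have h1 := (a1.tp H.dg).hom y p.1.1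
  have h2 := (a2.tp H.dg).hom y p.1.1
  have l0 := ht.lev_pos p.1.1
  refine (tw_u y p).trans (Eq.trans (sub_eq_zero.1 (congrFun (sp.2 (fun w =>
    S1.cf ℝ w (eval (T.Yw S1 y) (T.tp S S1 φ Ψ p.1.1)) -
      S1.cf ℝ w (eval (T.Yw S1 y) (T.tp S S1 φ Ψ' p.1.1))) (T.lev p.1.1) (fun w z => ?_)
    fun ω hω => ?_) p.1.2)) (tw_u y p).symm)
  · rw [← map_sub] at z
    obtain ⟨m, a, b⟩ := Sh.cf_ne z
    exact (o.gr_dg b).symm.trans ((h1.sub h2) a)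
  · have k1 := Sh.aeval_pt (sp.1 ω hω).mul h1 l0 (hs _)
    have k2 := Sh.aeval_pt (sp.1 ω hω).mul h2 l0 (hs _)
    rw [eval_tp] at k1 k2
    simp only [mul_sub, sum_sub_distrib]
    exact sub_eq_zero.2 (k1.symm.trans (Eq.trans (congrArg _ (congrFun (hΨ ω hω) p.1.1)) k2))

theorem core {M C : ℕ} (hM : MARHT M C) {Ω : Type} {T : TS Unit} {st : T.C → ℕ} {S : Sh Unit τ}
    {S1 : Sh Unit τ'} {χ0 : Ω → S1.W → ℤ} {P : Finset Ω} {s n : ℕ} {a η B : ℝ} {Ψ Ψ' : T.Twd S}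
    {f : Ω → (T.C → ℤ) → ℝ} (hy : T.Hy S st Ψ M C n a η) (ad : T.Adm S st Ψ')
    (hs : ∀ F, T.lev F ≤ s) {φ : Matrix S1.W S.W ℤ} {ψ : Matrix S.W S1.W ℤ} {J : Type} [Fintype J]
    [DecidableEq J] {N : Matrix S.W J ℤ} {Q : Matrix J S.W ℤ} {cj : J → Unit →₀ ℕ}
    (H : S.Spl S1 n φ ψ N Q cj) (sp : Sep s S1 χ0 P)
    (hΨ : ∀ ω ∈ P, atp T S Ψ (χ0 ω ᵥ* φ) = atp T S Ψ' (χ0 ω ᵥ* φ)) (hf : ∀ ω y, |f ω y| ≤ B) :
    |EP T S Ψ (fun ω => χ0 ω ᵥ* φ) P f - EP T S Ψ' (fun ω => χ0 ω ᵥ* φ) P f| ≤ 2 * η * B ^ #P := by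
  let g : (T.Cw S1 → ℤ) → ℝ := fun y => ∏ ω ∈ P, f ω (T.pw S1 (χ0 ω) y)
  have hg : ∀ y, |g y| ≤ B ^ #P := fun y => by
    rw [abs_prod, ← prod_const]
    exact prod_le_prod (fun _ _ => abs_nonneg _) fun ω _ => hf ω _
  have e : ∀ Ψ : T.Twd S, EP T S Ψ (fun ω => χ0 ω ᵥ* φ) P f =
      (T.tw S Ψ).E fun y => g (T.hm S S1 φ y) := fun Ψ =>
    congrArg (T.tw S Ψ).E (funext fun (y : T.Cw S → ℤ) => prod_congr rfl fun ω _ =>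
      congrArg (f ω) (pw_hm H.hm.cd _ y).symm)
  have p1 := (hM _ _ _ J T S st Ψ n a η S1 φ ψ N Q cj hy H).E hg
  have p2 := (hM _ _ _ J T S st Ψ' n a η S1 φ ψ N Q cj
    ⟨hy.stg, ad, hy.pos, hy.le, hy.rg, hy.sz⟩ H).E hg
  have e2 : (T.tw S1 (T.tp S S1 φ Ψ)).E g = (T.tw S1 (T.tp S S1 φ Ψ')).E g :=
    Eqv.E (T := T.tw S1 (T.tp S S1 φ Ψ)) (T' := T.tw S1 (T.tp S S1 φ Ψ')) (U := Equiv.refl _)
      (fun y => congrArg (gs (T.sh S1).K⁻¹)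
        (u_eq hy.stg.cl.1 H.ok H.hm hy.adm ad hs sp hΨ (zc y)).symm) g
  rw [e, e]
  rw [e2] at p1
  calc _ ≤ _ := abs_sub_le _ ((T.tw S1 (T.tp S S1 φ Ψ')).E g) _
    _ ≤ _ := add_le_add p1 ((abs_sub_comm _ _).trans_le p2)
    _ = _ := by ring

end Uw

theorem untw : UNTW := by
  intro M C hM τ τ0 Ω T st S S0 χ χ0 P s n a η B Ψ Ψ' f hy ad hs
    ⟨φ, ψ, J, _, _, N, Q, cj, H, hχ, _⟩ sp hΨ hf
  have e : ∀ Ψ : T.Twd S, EP T S Ψ χ P f = EP T S Ψ (fun ω => χ0 ω ᵥ* φ) P f := fun Ψ =>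
    congrArg (T.tw S Ψ).E (funext fun _ => prod_congr rfl fun ω hω => by rw [← hχ ω hω])
  rw [e, e]
  exact Uw.core (S1 := S0.setK (rl φ * S.K * (rl φ)ᵀ)) hM hy ad hs H
    ⟨fun ω hω => ⟨(sp.1 ω hω).mul, (sp.1 ω hω).mass⟩, sp.2⟩
    (fun ω hω => by have := hΨ ω hω; rwa [← hχ ω hω] at this) hf

end Crest.Agent.N49.Un

end
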