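import Crest.Agent.N49.Un.Defs
import Crest.Agent.N49.Br.Vis
import Crest.Agent.N49.Tw.Mast0
import Crest.Agent.N49.Tw.ConD

/-!
# Row 49 (helper43): `UNIF` from its leaves
-/

set_option autoImplicit false

open Matrix MvPolynomial Finset

noncomputable section

namespace Crest.Agent.N49.Un

open Po Tw Br

section grid
variable {ι : Type} [Fintype ι] [LinearOrder ι] {s : ℕ} {q q' : ι → ℕ} {v : ℕ → Finset ι → ℝ}

theorem card_pts (q : ι → ℕ) : #(pts q) = ∏ i, q i := by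
  rw [pts, Fintype.card_piFinset]
  exact prod_congr rfl fun i _ => by
    rw [card_image_of_injective _ (Option.some_injective _), card_range]

theorem card_grid (q : ι → ℕ) : #(grid q) = ∏ i, (q i + 1) := by
  rw [grid, Fintype.card_piFinset]
  exact prod_congr rfl fun i _ => by simp

theorem grid_le (h : ∀ i, q i ≤ q' i) : #(grid q) ≤ #(grid q') := by
  rw [card_grid, card_grid]
  exact prod_le_prod' fun i _ => Nat.succ_le_succ (h i)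

theorem grid_pos (q : ι → ℕ) : 1 ≤ #(grid q) := by
  rw [card_grid]
  exact Nat.one_le_iff_ne_zero.2 (prod_ne_zero_iff.2 fun i _ => by omega)

theorem gr_ok (h : ∀ j B, 0 < v j B) : (Top.gr s q v).Ok :=
  tw_ok (V := fun j w => v j (bl w)) (dc_grid q) fun _ _ => h _ _

theorem gr_sz [Nonempty ι] {n : ℕ} {a : ℝ} (ha : 0 < a) (h : ∀ j B, a ≤ v j B) (h1 : 1 ≤ n)
    (hn : s * #(grid q) ≤ n) : (Top.gr s q v).Sz n a :=
  tw_sz (V := fun j w => v j (bl w)) (dc_grid q) ha (fun _ _ => h _ _) h1 hn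

theorem gr_pt [Nonempty ι] {ω : Pt ι} (h : ω ∈ pts q) (hs : 1 ≤ s) :
    (Top.gr s q v).Pt s (Top.gp s q v ω) :=
  tw_pt (V := fun j w => v j (bl w)) (dc_grid q) (pts_grid h) (pts_bl h) hs

theorem gr_hi {b : ℝ} (h : ∀ j B, v j B ≤ b) (x : (Top.gr s q v).W → ℝ) :
    qf (Top.gr s q v).K x ≤ b * ∑ w, x w ^ 2 := by
  have : ∀ x : Wd s (grid q) → ℝ,
      qf (diagonal fun w : Wd s (grid q) => v w.lv (bl w.tr)) x ≤ b * ∑ w, x w ^ 2 := fun x => by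
    rw [mul_sum]
    refine sum_le_sum fun w _ => ?_
    rw [mulVec_diagonal]
    nlinarith [mul_le_mul_of_nonneg_right (h w.lv (bl w.tr)) (sq_nonneg (x w))]
  exact this x

end grid

theorem prod_le_pow {Ω : Type} (P : Finset Ω) {g : Ω → ℝ} {B : ℝ} (h : ∀ ω, 0 ≤ g ω ∧ g ω ≤ B) :
    0 ≤ ∏ ω ∈ P, g ω ∧ ∏ ω ∈ P, g ω ≤ B ^ #P :=
  ⟨prod_nonneg fun ω _ => (h ω).1, by
    rw [← prod_const]; exact prod_le_prod (fun ω _ => (h ω).1) fun ω _ => (h ω).2⟩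

/-- sums compare, hence expectations almost compare -/
theorem E_of_S {τ : Type} {T : TS Unit} {S : Sh Unit τ} {st : T.C → ℕ} {Ψ Ψ' : T.Twd S}
    {M C n : ℕ} {a η B : ℝ} (m : MAST M C) (h : T.Hy S st Ψ M C n a η) (h' : T.Adm S st Ψ')
    (e : η ≤ 1 / 4) {g g' : (T.Cw S → ℤ) → ℝ} (b : ∀ y, 0 ≤ g' y ∧ g' y ≤ B)
    (k : (T.tw S Ψ).S g ≤ (T.tw S Ψ').S g') :
    (T.tw S Ψ).E g ≤ (T.tw S Ψ').E g' + 3 * η * B := by
  have H : T.Hy S st Ψ' M C n a η := { h with adm := h' }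
  have m1 := abs_le.1 (m _ _ T S st Ψ n a η h)
  have m2 := abs_le.1 (m _ _ T S st Ψ' n a η H)
  have z : (T.lw S st Ψ').Zc = (T.lw S st Ψ).Zc := by
    rw [TS.lw_Zc h.stg h.adm h.sz.toOk, TS.lw_Zc h.stg h' h.sz.toOk]
  rw [z, TS.lw_Z] at m2
  rw [TS.lw_Z] at m1
  have p := h.tw_tri.Z_pos
  have p' := H.tw_tri.Z_pos
  have c := h.tri.Zc_pos
  have e1 : (T.tw S Ψ').E g' ≤ B :=
    H.tw_tri.E_le (Bb.of_mem (fun y => (b y).1) fun y => (b y).2) fun y => (b y).2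
  have e0 : 0 ≤ (T.tw S Ψ').E g' := TS.E_nonneg fun y => (b y).1
  have e2 : (T.tw S Ψ').S g' = (T.tw S Ψ').E g' * (T.tw S Ψ').Z := (div_mul_cancel₀ _ p'.ne').symm
  have := h.pos
  refine (div_le_iff₀ p).2 (k.trans (e2 ▸ ?_))
  have d : (T.tw S Ψ').Z ≤ (1 + 3 * η) * (T.tw S Ψ).Z := by nlinarith [mul_pos this c]
  calc _ ≤ (T.tw S Ψ').E g' * ((1 + 3 * η) * (T.tw S Ψ).Z) := by gcongr
    _ = ((T.tw S Ψ').E g' + 3 * η * (T.tw S Ψ').E g') * (T.tw S Ψ).Z := by ring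
    _ ≤ _ := by gcongr

theorem pow_loss {x t y : ℝ} {k : ℕ} (hx : 1 ≤ x) (h0 : 0 ≤ t) (h1 : t ≤ 1) (hk : 1 ≤ k)
    (h : x ^ k ≤ y + t) : (x * (1 - t)) ^ k ≤ y := by
  have a := one_le_pow₀ (n := k) hx
  have b : (1 - t) ^ k ≤ 1 - t := pow_le_of_le_one (by linarith) (by linarith) (by omega)
  rw [mul_pow]
  nlinarith [mul_le_mul_of_nonneg_left b (zero_le_one.trans a)]

theorem atp_tw0 {τ : Type} {T : TS Unit} {S : Sh Unit τ} {χ : S.W → ℤ} (h : ∑ w, S.ε w * χ w = 1)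
    (Φ : T.C → MvPolynomial T.C ℝ) : atp T S ((T.setΦ Φ).tw0 S) χ = Φ :=
  funext fun F => TS.ev_tw0 (T := T.setΦ Φ) h F

theorem E_tw0 {τ : Type} {T : TS Unit} {S : Sh Unit τ} (g : (T.Cw S → ℤ) → ℝ) :
    (T.tw S (T.tw0 S)).E g = (T.sh S).E g :=
  congrArg (fun Φ => ((T.sh S).setΦ Φ).E g) (funext fun p =>
    congrArg (S.cf _ p.1.2) (TS.eval₂_tw0 _ _) : (T.tw S (T.tw0 S)).Φ = (T.sh S).Φ)

theorem EP_tw0 {τ Ω : Type} {T : TS Unit} {S : Sh Unit τ} (χ : Ω → S.W → ℤ) (P : Finset Ω)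
    (Φ : T.C → MvPolynomial T.C ℝ) (f : Ω → (T.C → ℤ) → ℝ) : EP T S ((T.setΦ Φ).tw0 S) χ P f =
      ((T.setΦ Φ).sh S).E fun y => ∏ ω ∈ P, f ω ((T.setΦ Φ).pw S (χ ω) y) :=
  E_tw0 (T := T.setΦ Φ) _

/-- **the glue** -/
theorem unif_of (sim : SIM) (trf : TRF) (untw : UNTW) (ght : GHT) (rgd : RGD) : UNIF := by
  intro M C ma mh ι τ τ0 _ _ _ s n q q' v T st S χ S0 χ0 Ψ a a1 η B x δ f hs hl s1 rg η0 η1 ad sz vs
    vm hn hq hv B1 hf x1 hδ δ1 ex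
  have a0 := rg.pos
  have n1 : 1 ≤ n := le_trans (Nat.mul_le_mul s1 (grid_pos q')) hn
  have n1' : (1 : ℝ) ≤ n := by exact_mod_cast n1
  have hn' : s * #(grid q) ≤ n := le_trans (Nat.mul_le_mul_left _ (grid_le fun i => (hq i).2)) hn
  have a4 : a ≤ a * n ^ 4 := le_mul_of_one_le_right a0.le (one_le_pow₀ n1')
  have va : ∀ j B, a ≤ v j B := fun j B => a4.trans (hv j B).1
  have v0 : ∀ j B, 0 < v j B := fun j B => a0.trans_le (va j B)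
  have vb : ∀ j B, v j B ≤ a1 / n ^ 8 := fun j B => (le_div_iff₀ (by positivity)).2 (hv j B).2
  have o := gr_ok (s := s) (q := q) v0
  obtain ⟨Ψ2, d2, e2⟩ := trf M C ma mh _ _ _ _ T st S (Top.gr s q v) S0 χ (Top.gp s q v) χ0 (pts q) n
    a a1 (a * n ^ 4) (a1 / n ^ 8) η B Ψ f hs rg η0 η1 ad sz
    (gr_sz (by positivity) (fun j B => (hv j B).1) n1 hn') vs.sz vm (vs.vm v v0) n1 (gr_hi vb)
    ((hv 0 ∅).1.trans (vb 0 ∅)) (div_mul_cancel₀ _ (by positivity)).le le_rfl B1 hf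
  obtain ⟨ω, hω, Ψ3, d3, p3, e3⟩ := ght ι s M q v T st Ψ2 f (fun i => (hq i).1) v0 hs d2
    (fun ω y => (hf ω y).1) fun ω => Bb.of_mem (fun y => (hf ω y).1) fun y => (hf ω y).2
  have H2 : T.Hy (Top.gr s q v) st Ψ2 M C n a η :=
    ⟨hs, d2, η0, by linarith, rg, gr_sz a0 va n1 hn'⟩
  have e4 := E_of_S ma H2 d3 η1 (fun y => prod_le_pow (pts q) fun ω' => hf ω _) e3
  obtain ⟨k1, k2⟩ := sim T st M hs
  have sm := k1 _ _ Ψ2 (Top.gp s q v ω) d2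
  generalize atp T _ Ψ2 (Top.gp s q v ω) = Φ at sm p3
  obtain ⟨c1, -, c3, c4⟩ := k2 Φ sm
  have d4 : T.Adm (Top.gr s q v) st ((T.setΦ Φ).tw0 (Top.gr s q v)) := (c4 _ _ _).1 (c1.adm o)
  have e5 := untw M C mh _ _ _ T st (Top.gr s q v) S0 (Top.gp s q v) χ0 (pts q) s n a η B Ψ3 _
    (fun _ => f ω) { H2 with adm := d3 } d4 hl (vs.vm v v0) vs.sep 
    (fun ω' h => (p3 ω' h).trans (atp_tw0 (gr_pt h s1).mass Φ).symm)
    fun _ y => abs_le.2 ⟨by linarith [(hf ω y).1], (hf ω y).2⟩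
  have e6 : EP T (Top.gr s q v) ((T.setΦ Φ).tw0 (Top.gr s q v)) (Top.gp s q v) (pts q)
      (fun _ => f ω) = Top.GS (T.setΦ Φ) s q v (f ω) := EP_tw0 _ _ _ _
  rw [e6, card_pts] at e5
  rw [card_pts] at e2 e4
  have k : 1 ≤ ∏ i, q i := Nat.one_le_iff_ne_zero.2 (prod_ne_zero_iff.2 fun i _ => by
    have := (hq i).1; omega)
  have t0 : 0 ≤ η * (10 * B ^ ∏ i, q i) := by positivity
  have t1 : 0 ≤ η * (4 * Fintype.card ι) := by positivity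
  rw [mul_add] at hδ
  have e7 : (x * (1 - η * (10 * B ^ ∏ i, q i))) ^ ∏ i, q i ≤ Top.GS (T.setΦ Φ) s q v (f ω) := by
    refine pow_loss x1 t0 (by linarith) k ?_
    have := (abs_le.1 e5).2
    change EP T _ Ψ2 _ _ f ≤ EP T _ Ψ3 _ _ (fun _ => f ω) + _ at e4
    linarith
  have e8 := rgd M C ma ι s n q q' v (T.setΦ Φ) st a η _ (f ω) c1 (c3 _ _ _ _ rg) η0 η1 n1 hn va hq
    (fun y => (hf ω y).1) (Bb.of_mem (fun y => (hf ω y).1) fun y => (hf ω y).2)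
    (mul_nonneg (by linarith) (by linarith)) e7
  refine ⟨ω, hω, Φ, sm, le_trans (pow_le_pow_left₀ (mul_nonneg (by linarith) (by linarith)) ?_ _) e8⟩
  have b := one_add_mul_le_pow (show (-2 : ℝ) ≤ -(2 * η) by linarith) (2 * Fintype.card ι)
  rw [← sub_eq_add_neg] at b
  push_cast at b
  rw [mul_assoc]
  refine mul_le_mul_of_nonneg_left ?_ (by linarith)
  nlinarith [mul_le_mul_of_nonneg_left b (show 0 ≤ 1 - η * (10 * B ^ ∏ i, q i) by linarith),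
    mul_nonneg t0 t1]

end Crest.Agent.N49.Un

end
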