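import Crest.Agent.N49.Un.All

/-!
# Row 49 (helper43): the link `d + 1 → d` from its core
-/

set_option autoImplicit false

namespace Crest.Agent.N49.Un

open Crest.Agent.N49.Top

/-- **the core of the step**: a state on `d + 2` blocks gives a pre-state on `d + 1` blocks -/
def CORE (s d : ℕ) : Prop := ∀ ε : ℝ, 0 < ε → ∃ ε' : ℝ, 0 < ε' ∧ ∃ E, ∀ b', ∃ b K,
  ∀ (N m : ℕ) (A : Finset ℕ) (α : ℝ) (g : Gs (d + 1)), 2 ≤ m → 1 / 2 ^ m ≤ α → α ≤ 1 →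
    Ok (2 * s + 1) K m (Lm N m) g.c → g.P s (d + 1) N m A α ε b →
      ∃ c, Tri (2 * s + 1) K m g.c c ∧ Pre s d N m A α ε' E b' c

theorem dst_of {s d : ℕ} (k : ℕ) (hs : 1 ≤ s) (ma : MA) (h : CORE s d) : (sd s).Dst k d := by
  intro ε hε
  obtain ⟨ε1, h1, E, h⟩ := h ε hε
  obtain ⟨ε', h', u⟩ := unp ma s d E ε1 hs h1
  refine ⟨ε', h', fun b' => ?_⟩
  obtain ⟨b1, u⟩ := u b'
  obtain ⟨b, K, h⟩ := h b1
  obtain ⟨K', x⟩ := xs_out s K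
  refine ⟨b, K + K', fun N m A α y g p o => ?_⟩
  have m2 := y.m2
  obtain ⟨c, t, q⟩ := h N m A α g m2 y.lo y.hi (Ok.mono o (by omega) (by omega)) p
  obtain ⟨g', rfl, r⟩ := u N m A α c m2 y.lo (x N m _ c m2 t (Ok.mono o (by omega) (by omega))) q
  exact ⟨g', r, t.mono (by omega) (by omega) le_rfl⟩

/-- the same for the first link -/
def CORL (s k j : ℕ) : Prop := ∃ ε : ℝ, 0 < ε ∧ ∃ E, ∀ b, ∃ K,
  ∀ (N m : ℕ) (A : Finset ℕ) (α : ℝ) (V : Tw.Ctr) (c : ℕ → ℕ), Hy k N m A α →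
    Ok (2 * s + 1) K m (Lm N m) c → V.Cs s N c → V.den (zs A) = α →
      ∃ c', Tri (2 * s + 1) K m c c' ∧ Pre s j N m A α ε E b c'

theorem lst_of {s k j : ℕ} (hs : 1 ≤ s) (ma : MA) (h : CORL s k j) : (sd s).Lst k j := by
  obtain ⟨ε1, h1, E, h⟩ := h
  obtain ⟨ε', h', u⟩ := unp ma s j E ε1 hs h1
  refine ⟨ε', h', fun b' => ?_⟩
  obtain ⟨b1, u⟩ := u b'
  obtain ⟨K, h⟩ := h b1
  obtain ⟨K', x⟩ := xs_out s K
  refine ⟨K + K', fun N m A α y v p o => ?_⟩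
  have m2 := y.m2
  obtain ⟨c, t, q⟩ := h N m A α v.1 v.2 y (Ok.mono o (by omega) (by omega)) p.1 p.2
  obtain ⟨g', rfl, r⟩ := u N m A α c m2 y.lo (x N m _ c m2 t (Ok.mono o (by omega) (by omega))) q
  exact ⟨g', r, t.mono (by omega) (by omega) le_rfl⟩

end Crest.Agent.N49.Un
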