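import Crest.Agent.N49.Un.Defs
import Crest.Agent.N49.Ho.Adm

/-!
# Row 49 (helper1): `GHT`
-/

namespace Crest.Agent.N49.Un

theorem ght : GHT := fun _ _ _ _ _ _ _ _ _ _ _ _ hq hv hs h n1 b1 =>
  let ⟨ω, m, Ψ, a, e, k⟩ := Ho.unif_adm hq hv hs h n1 b1
  ⟨ω, m, Ψ, a, fun ω' m' => funext (e ω' m'), k⟩

end Crest.Agent.N49.Un
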