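import Crest.Agent.N49.Un.Defs

/-!
# Row 49 (helper95): `SIM` — the same top part gives the same stages, regularity and costs
-/

set_option autoImplicit false

open Matrix MvPolynomial Finset

noncomputable section

namespace Crest.Agent.N49.Un

open Po Tw

namespace Si

variable {T : TS Unit} {st : T.C → ℕ} {M : ℕ} {Φ : T.C → MvPolynomial T.C ℝ}

theorem lin (h : Sim T st Φ) {c c' : T.C} (e : T.lev c = T.lev c') :
    coeff (Finsupp.single c' 1) (Φ c) = coeff (Finsupp.single c' 1) (T.Φ c) :=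
  h.top c _ (by rw [Finsupp.weight_single, one_smul, e])

theorem A_eq (h : Sim T st Φ) : (T.setΦ Φ).A = T.A := by
  ext c c'
  change (if T.lev c = T.lev c' then coeff (Finsupp.single c' 1) (Φ c) else 0) =
    if T.lev c = T.lev c' then coeff (Finsupp.single c' 1) (T.Φ c) else 0
  split_ifs with e
  · exact lin h e
  · rfl

theorem As_eq (hs : T.Stg st M) (h : Sim T st Φ) :
    ((T.setΦ Φ).stg st).A = (T.stg st).A := by
  ext c c'
  refine (TS.stg_A (T := T.setΦ Φ) (st := st) c c').trans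
    (Eq.trans ?_ (TS.stg_A (T := T) (st := st) c c').symm)
  split_ifs with e
  · exact lin h (hs.lev c c' e)
  · rfl

theorem D_eq (h : Sim T st Φ) : (T.setΦ Φ).D = T.D :=
  congrArg (fun B : Matrix T.C T.C ℝ => B⁻¹ * T.K * B⁻¹ᵀ) (A_eq h)

theorem Ds_eq (hs : T.Stg st M) (h : Sim T st Φ) :
    ((T.setΦ Φ).stg st).D = (T.stg st).D :=
  congrArg (fun B : Matrix T.C T.C ℝ => B⁻¹ * T.K * B⁻¹ᵀ) (As_eq hs h)

theorem tri (hs : T.Stg st M) (h : Sim T st Φ) : (T.setΦ Φ).Tri :=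
  ⟨fun c m hm => (h.le c m hm).1, hs.cl.1.ne, by rw [A_eq h]; exact hs.cl.1.det, hs.cl.1.pd,
    hs.cl.1.blk⟩

theorem stg (hs : T.Stg st M) (h : Sim T st Φ) : (T.setΦ Φ).Stg st M :=
  ⟨(tri hs h).cl, TS.stg_tri (T := T.setΦ Φ) (fun c m hm => (h.le c m hm).2)
    (fun c => (hs.pos c).ne') (by rw [As_eq hs h]; exact hs.tri.det) hs.cl.1.pd
    fun _ _ z => hs.blk z, hs.lev, hs.le⟩

theorem tw0_eq (ht : T.Tri) (h : Sim T st Φ) {τ : Type} (S : Sh Unit τ) (hε : ∀ w, S.ε w = 0) :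
    (T.setΦ Φ).tw0 S = T.tw0 S := by
  have z : S.el (R := ℝ) S.ε = 0 := sum_eq_zero fun w _ => by rw [hε w, zero_smul]
  funext F
  ext1 m
  refine (TS.coeff_tw0 (T := T.setΦ Φ) (S := S) F m).trans
    (Eq.trans ?_ (TS.coeff_tw0 (T := T) (S := S) F m).symm)
  revert F m
  intro (F : T.C) (m : T.C →₀ ℕ)
  change coeff m (Φ F) • S.el (R := ℝ) S.ε ^ (T.lev F - Finsupp.weight T.lev m) =
    coeff m (T.Φ F) • S.el (R := ℝ) S.ε ^ (T.lev F - Finsupp.weight T.lev m)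
  rw [z]
  rcases lt_trichotomy (Finsupp.weight T.lev m) (T.lev F) with l | e | l
  · rw [zero_pow (Nat.sub_ne_zero_of_lt l), smul_zero, smul_zero]
  · rw [h.top F m e]
  · have a : coeff m (Φ F) = 0 := notMem_support_iff.1 fun k => absurd (h.le F m k).1 (not_le.2 l)
    have b : coeff m (T.Φ F) = 0 := notMem_support_iff.1 fun k => absurd (ht.tri F m k) (not_le.2 l)
    rw [a, b]

theorem shΦ_eq (ht : T.Tri) (h : Sim T st Φ) {τ : Type} (S : Sh Unit τ) (hε : ∀ w, S.ε w = 0) :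
    ((T.setΦ Φ).sh S).Φ = (T.sh S).Φ := by
  funext p
  have a := TS.eval₂_tw0 (T := T.setΦ Φ) (S := S) (R := MvPolynomial (T.Cw S) ℝ)
    (T.Yw S (X (R := ℝ))) p.1.1
  have b := TS.eval₂_tw0 (T := T) (S := S) (R := MvPolynomial (T.Cw S) ℝ)
    (T.Yw S (X (R := ℝ))) p.1.1
  rw [tw0_eq ht h S hε] at a
  exact congrArg (S.cf _ p.1.2) (a.symm.trans b)

theorem sbS_eq (ht : T.Tri) (h : Sim T st Φ) (t : ℕ) {l : ℕ} (col : Fin l → Unit) (κ : ℕ → ℝ)
    (k : T.C → ℤ) : (T.setΦ Φ).sbS st t col κ k = T.sbS st t col κ k :=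
  congrArg (fun Φ' => (((T.sh (Sh.sym col κ)).setΦ Φ').stg fun p => st p.1.1).bias t
    fun p => if (Sh.sym col κ).dg p.1.2 = l then k p.1.1 else 0)
    (shΦ_eq ht h _ fun w => by simp [Sh.sym, Sh.mono, Finsupp.sum])

theorem ct_eq (hs : T.Stg st M) (h : Sim T st Φ) (j : ℕ) :
    ((T.setΦ Φ).stg st).ct j = (T.stg st).ct j :=
  congrArg (fun B : Matrix T.C T.C ℝ => Po.th (B.submatrix
    (Subtype.val : {c // (T.stg st).lev c = j} → T.C) Subtype.val) 0) (Ds_eq hs h)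

theorem LbS_eq (hs : T.Stg st M) (h : Sim T st Φ) (M' C n : ℕ) (lb : ℕ → ℝ) (η : ℝ) (t : ℕ) :
    (T.setΦ Φ).LbS st M' C n lb η t = T.LbS st M' C n lb η t := by
  unfold TS.LbS
  simp only [ct_eq hs h]
  rfl

theorem symS (hs : T.Stg st M) (h : Sim T st Φ) {t : ℕ} {κ : ℕ → ℝ} {R τ : ℝ}
    (hy : T.SymS st t κ R τ) : (T.setΦ Φ).SymS st t κ R τ := fun l col k k0 hk hq => by
  rw [Ds_eq hs h] at hq
  exact (sbS_eq hs.cl.1 h t col κ k).trans_le (hy l col k k0 hk hq)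

theorem rgS (hs : T.Stg st M) (h : Sim T st Φ) {M' C n : ℕ} {a η : ℝ}
    (hr : T.RgS st M' C n a η) : (T.setΦ Φ).RgS st M' C n a η := by
  obtain ⟨κ, lb, h1, h2, h3⟩ := hr
  refine ⟨κ, lb, h1, h2, fun t ht => ?_⟩
  rw [LbS_eq hs h]
  exact symS hs h (h3 t ht)

theorem adm (h : Sim T st Φ) {τ : Type} (S : Sh Unit τ) (Ψ : T.Twd S) :
    (T.setΦ Φ).Adm S st Ψ ↔ T.Adm S st Ψ :=
  ⟨fun k => ⟨k.gr, k.le, fun F m e => (k.top F m e).trans (congrArg _ (h.top F m e))⟩,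
    fun k => ⟨k.gr, k.le, fun F m e => (k.top F m e).trans (congrArg _ (h.top F m e).symm)⟩⟩

theorem sim_atp {τ : Type} {S : Sh Unit τ} {Ψ : T.Twd S} (h : T.Adm S st Ψ) (χ : S.W → ℤ) :
    Sim T st (atp T S Ψ χ) :=
  ⟨fun F m hm => h.le F m (support_map_subset _ _ hm), fun F m e => by
    rw [atp, coeff_map, h.top F m e, eval_C]⟩

end Si

theorem sim : SIM := fun _ _ _ hs =>
  ⟨fun _ _ _ χ h => Si.sim_atp h χ, fun _ h =>
    ⟨Si.stg hs h, Si.D_eq h, fun _ _ _ _ => Si.rgS hs h, fun _ S Ψ => Si.adm h S Ψ⟩⟩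

end Crest.Agent.N49.Un

end
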