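import Crest.Agent.N49.Gb.Un2
import Crest.Agent.N49.Un.Defs
import Crest.Agent.N49.Tw.Mast0

/-!
# Row 49 (helper24): transfer to a narrower shape with the same visible ring
-/

set_option autoImplicit false
set_option linter.unusedSectionVars false

open Matrix MvPolynomial Finset

noncomputable section

namespace Crest.Agent.N49.Un
open Po Tw Gb

theorem sq_tr {m k : Type} [Fintype m] [Fintype k] {n : ℕ} {U : Matrix m k ℤ}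
    (hU : ∀ i j, |U i j| ≤ n) (hm : Fintype.card m ≤ n) (hk : Fintype.card k ≤ n) (z : m → ℝ) :
    ∑ j, ((rl U)ᵀ *ᵥ z) j ^ 2 ≤ n ^ 4 * ∑ i, z i ^ 2 := by
  have cm : (Fintype.card m : ℝ) ≤ n := by exact_mod_cast hm
  have ck : (Fintype.card k : ℝ) ≤ n := by exact_mod_cast hk
  have b1 : ∀ j, ((rl U)ᵀ *ᵥ z) j ^ 2 ≤ n ^ 3 * ∑ i, z i ^ 2 := fun j => by
    refine (sum_mul_sq_le_sq_mul_sq _ _ _).trans (mul_le_mul_of_nonneg_right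
      ((sum_le_card_nsmul _ _ ((n : ℝ) ^ 2) fun i _ => ?_).trans ?_) (by positivity))
    · have : |(U i j : ℝ)| ≤ n := by exact_mod_cast hU i j
      exact sq_le_sq' (abs_le.1 this).1 (abs_le.1 this).2
    · rw [card_univ, nsmul_eq_mul]; nlinarith [sq_nonneg (n : ℝ)]
  refine (sum_le_card_nsmul _ _ _ fun j _ => b1 j).trans ?_
  rw [card_univ, nsmul_eq_mul]
  calc _ ≤ (n : ℝ) * (n ^ 3 * ∑ i, z i ^ 2) := by gcongr
    _ = _ := by ring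

variable {σ τ τ0 J : Type} [Fintype J] [DecidableEq J] {S : Sh σ τ} {S0 : Sh σ τ0} {n : ℕ}
  {φ : Matrix S0.W S.W ℤ} {ψ : Matrix S.W S0.W ℤ} {N : Matrix S.W J ℤ} {Q : Matrix J S.W ℤ}
  {cj : J → σ →₀ ℕ} {a b : ℝ}

theorem qf_push (φ : Matrix S0.W S.W ℤ) (x : S0.W → ℝ) :
    qf (rl φ * S.K * (rl φ)ᵀ) x = qf S.K ((rl φ)ᵀ *ᵥ x) := by
  rw [← qf_conj, transpose_transpose]

theorem push_lo (h : S.Sz n a) (h0 : S0.Sz n 0) (e : φ * ψ = 1) (hψ : ∀ w w', |ψ w w'| ≤ n)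
    (hb : 0 ≤ b) (k : b * n ^ 4 ≤ a) (x : S0.W → ℝ) :
    b * ∑ w, x w ^ 2 ≤ qf (rl φ * S.K * (rl φ)ᵀ) x := by
  have := sq_tr hψ h.card h0.card ((rl φ)ᵀ *ᵥ x)
  rw [mulVec_mulVec, ← transpose_mul, ← rl_mul, e, rl_one, transpose_one, one_mulVec] at this
  rw [qf_push]
  refine (mul_le_mul_of_nonneg_left this hb).trans (le_trans ?_ (h.lo _))
  rw [← mul_assoc]
  exact mul_le_mul_of_nonneg_right k (by positivity)

theorem push_sz (H : S.Spl (S0.setK (rl φ * S.K * (rl φ)ᵀ)) n φ ψ N Q cj) (h : S.Sz n a)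
    (h0 : S0.Sz n 0) (hψ : ∀ w w', |ψ w w'| ≤ n) (hb : 0 ≤ b) (k : b * n ^ 4 ≤ a) :
    (S0.setK (rl φ * S.K * (rl φ)ᵀ)).Sz n b :=
  ⟨H.ok, h0.card, h0.ht, push_lo (S0 := S0) h h0 H.φψ hψ hb k, h0.gen⟩

theorem sz_le (h : S.Sz n a) (k : b ≤ a) : S.Sz n b := ⟨h.toOk, h.card, h.ht,
  fun x => (mul_le_mul_of_nonneg_right k (by positivity)).trans (h.lo x), h.gen⟩

theorem trf : TRF := by
  intro M C ma mh τ1 τ2 τ0 Ω T st S1 S2 S0 χ1 χ2 χ0 P n a a1 a2 b η B Ψ1 f hs rg η0 η1 ad s1 s2 s0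
    ⟨φ1, ψ1, J1, _, _, N1, Q1, c1, H1, p1, t1⟩ ⟨φ2, ψ2, J2, _, _, N2, Q2, c2, H2, p2, t2⟩ n1 hi
    k1 k2 k3 B1 hf
  have a0 := rg.pos
  have n4 : (1 : ℝ) ≤ n ^ 4 := one_le_pow₀ (by exact_mod_cast n1)
  have e8 : b * n ^ 8 = b * n ^ 4 * n ^ 4 := by ring
  have l2 : a ≤ a2 := by nlinarith
  have b0 : 0 < b := by linarith
  have l3 : b ≤ b * n ^ 4 := by nlinarith
  have l1 : a ≤ a1 := by nlinarith
  have z1 := push_sz H1 s1 s0 (fun w w' => (t1 w' w).2) a0.le (by nlinarith)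
  have z2 := push_sz H2 s2 s0 (fun w w' => (t2 w' w).2) a0.le k3
  have psd : (rl φ1 * S1.K * (rl φ1)ᵀ - rl φ2 * S2.K * (rl φ2)ᵀ).PosSemidef := by
    refine PosSemidef.of_dotProduct_mulVec_nonneg (z1.pd.1.sub z2.pd.1) fun x => ?_
    have u := push_lo s1 s0 H1.φψ (fun w w' => (t1 w' w).2) (b := b * n ^ 4) (by positivity)
      (e8 ▸ k2) x
    have v := (hi _).trans (mul_le_mul_of_nonneg_left
      (sq_tr (fun w' w => (t2 w' w).1) s0.card s2.card x) b0.le)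
    rw [← qf_push, ← mul_assoc] at v
    rw [star_trivial, sub_mulVec, dotProduct_sub]
    exact sub_nonneg.2 (v.trans u)
  let g : (T.Cw S0 → ℤ) → ℝ := fun y => ∏ ω ∈ P, f ω (T.pw S0 (χ0 ω) y)
  have g0 : ∀ {G : Type} (x : Ω → G → T.C → ℤ) (y : G), 0 ≤ ∏ ω ∈ P, f ω (x ω y) :=
    fun _ _ => prod_nonneg fun _ _ => (hf _ _).1
  have gB : ∀ {G : Type} (x : Ω → G → T.C → ℤ) (y : G), ∏ ω ∈ P, f ω (x ω y) ≤ B ^ #P :=
    fun _ _ => by rw [← prod_const]; exact prod_le_prod (fun _ _ => (hf _ _).1) fun _ _ => (hf _ _).2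
  have g0' : ∀ y, 0 ≤ g y := g0 fun ω => T.pw S0 (χ0 ω)
  have gB' : ∀ y, g y ≤ B ^ #P := gB fun ω => T.pw S0 (χ0 ω)
  have q1 := (mh _ _ _ J1 T S1 st Ψ1 n a η (S0.setK (rl φ1 * S1.K * (rl φ1)ᵀ)) φ1 ψ1 N1 Q1 c1
    ⟨hs, ad, η0, by linarith, rg, sz_le s1 l1⟩ H1).E (g := g) (B := B ^ #P) fun y => by rw [abs_of_nonneg (g0' y)]; exact gB' y
  have ad0 := TS.Adm.tp (S' := S0.setK (rl φ1 * S1.K * (rl φ1)ᵀ)) ad H1.hm.dg
  generalize T.tp S1 (S0.setK (rl φ1 * S1.K * (rl φ1)ᵀ)) φ1 Ψ1 = Ψ0 at q1 ad0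
  have t0 := TS.lw_tri hs ad0 H1.ok
  have q2 := le_N t0 (ma _ _ T _ st Ψ0 n a η ⟨hs, ad0, η0, by linarith, rg, z1⟩) g0'
  have q2' := t0.E_le (.of_mem g0' gB') gB'
  obtain ⟨Ψ2, ad2, q3⟩ := Gb.trf ma mh hs η0 (by linarith) rg (sz_le s2 l2) z2 H2
    (K := rl φ1 * S1.K * (rl φ1)ᵀ) H1.ok psd (Ψ' := Ψ0) ⟨ad0.gr, ad0.le, ad0.top⟩ (g := g) g0' gB'
  have e1 : (T.tw S1 Ψ1).E (fun y => g (T.hm S1 S0 φ1 y)) = EP T S1 Ψ1 χ1 P f :=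
    congrArg _ (funext fun y => prod_congr rfl fun ω k => by rw [pw_hm (S' := S0) H1.hm.cd, p1 ω k])
  have e2 : (T.tw S2 Ψ2).E (fun y => g (T.hm S2 S0 φ2 y)) = EP T S2 Ψ2 χ2 P f :=
    congrArg _ (funext fun y => prod_congr rfl fun ω k => by rw [pw_hm (S' := S0) H2.hm.cd, p2 ω k])
  have q4 : EP T S2 Ψ2 χ2 P f ≤ B ^ #P := (TS.tw_tri hs.cl ad2 s2.toOk).E_le
    (.of_mem (g0 fun ω => T.pw S2 (χ2 ω)) (gB fun ω => T.pw S2 (χ2 ω))) (gB fun ω => T.pw S2 (χ2 ω))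
  refine ⟨Ψ2, ad2, ?_⟩
  have q5 := (q2.trans q3).trans_eq (congrArg (fun x => (1 + η) * (x + B ^ #P * η)) e2)
  have q6 := e1.ge.trans (sub_le_iff_le_add'.1 (abs_sub_le_iff.1 q1).1)
  have pB : 0 < B ^ #P := by positivity
  change _ ≤ (T.lw _ st Ψ0).E g + _ at q6
  nlinarith [mul_pos η0 pB]

end Crest.Agent.N49.Un

end
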