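import Crest.Agent.N49.Un.Pre
import Crest.Agent.N49.Un.Sim
import Crest.Agent.N49.Un.Trf
import Crest.Agent.N49.Un.Untw
import Crest.Agent.N49.Un.Ght
import Crest.Agent.N49.Un.Rgd
import Crest.Agent.N49.Un.Visx

/-!
# Row 49 (helper43): uniformisation, unconditional
-/

set_option autoImplicit false

namespace Crest.Agent.N49.Un

theorem unif : UNIF := unif_of sim trf untw ght rgd

theorem unp (ma : MA) : UNP := unp_of ma sim unif

end Crest.Agent.N49.Un
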